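import Vale.Agent.P092.H660.Rp.ChnC
import Vale.Agent.P092.H264.S2Sl

/-!
P092, project RP (helper660): **[RP-P8]**, the literal.
-/

set_option linter.all false

namespace Vale.Agent.P092.H660.Rp

open Vale.Agent.P092.H213.Rp (RP Rt)

theorem chn {k : Type} [NontriviallyNormedField k] [ProperSpace k] [CharZero k]
    {L : Type} [LieRing L] [LieAlgebra k L] {n r : ℕ} {b : Module.Basis (Fin n) k L}
    {wt : Fin n → Fin r → ℤ} {E F H : Fin r → L} {G : Type} [Group G] [TopologicalSpace G]
    {ρ : G →* Module.End k L} (hρ : RP b ρ) (h : Rt b wt E F H) : H264.Chn G r :=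
  exists_chain hρ h

end Vale.Agent.P092.H660.Rp
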