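import Mathlib
import Vale.Agent.P092.H701.Chain

/-!
P092 (helper660), ping-pong over any local field: half planes. `ζ : k × k → k^n` is a continuous
map, homogeneous of degree `m ≥ 1`, without zeros outside the origin. For a matrix `M` let
`D M = {v : ‖ζ(v) M‖ ≤ 1}`, a region of finite Haar measure; `M` lies in `Hf C` if the cone `C`
carries half of it. The engine `pp_of`: if the elements of a group act on `ζ` through shears
and dilations of the plane, they have ping-pong families (in the sense of `H701.HChain`).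
-/

set_option linter.all false

open Matrix Filter Topology MeasureTheory

namespace Vale.Agent.P092.H660.Rp

variable {k : Type} [NontriviallyNormedField k] [ProperSpace k] {n : ℕ}

/-- a planar family of row vectors -/
structure Pl (m : ℕ) (ζ : k × k → Fin n → k) : Prop where
  cont : Continuous ζ
  hom : ∀ (c : k) (v : k × k), ζ (c • v) = c ^ m • ζ v
  ne : ∀ v, v ≠ 0 → ζ v ≠ 0
  pos : 0 < m

/-- the unit region -/
def Dr (ζ : k × k → Fin n → k) (M : Matrix (Fin n) (Fin n) k) : Set (k × k) :=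
  {v | ∀ b, ‖(ζ v ᵥ* M) b‖ ≤ 1}

variable {m : ℕ} {ζ : k × k → Fin n → k}

theorem continuous_ztM (h : Continuous ζ) (b : Fin n) :
    Continuous fun p : Matrix (Fin n) (Fin n) k × (k × k) => (ζ p.2 ᵥ* p.1) b := by
  change Continuous fun p : Matrix (Fin n) (Fin n) k × (k × k) => ∑ i, ζ p.2 i * p.1 i b
  refine continuous_finsetSum _ fun i _ => ?_
  exact ((continuous_apply i).comp (h.comp continuous_snd)).mul
    ((continuous_apply b).comp ((continuous_apply i).comp continuous_fst))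

theorem isClosed_Dr (h : Continuous ζ) (M : Matrix (Fin n) (Fin n) k) : IsClosed (Dr ζ M) := by
  have h1 : Dr ζ M = ⋂ b, {v | ‖(ζ v ᵥ* M) b‖ ≤ 1} := by
    ext v; simp [Dr]
  rw [h1]
  refine isClosed_iInter fun b => isClosed_le ?_ continuous_const
  exact ((continuous_ztM h b).comp (Continuous.prodMk_right M)).norm

/-- lower bound -/
theorem exists_lower (h : Pl m ζ) {M M' : Matrix (Fin n) (Fin n) k} (hM : M * M' = 1) :
    ∃ ε : ℝ, 0 < ε ∧ ∀ v, ε * ‖v‖ ^ m ≤ ‖ζ v ᵥ* M‖ := by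
  obtain ⟨w, hw⟩ := NormedField.exists_one_lt_norm k
  have hg : Continuous fun v => ‖ζ v ᵥ* M‖ := by
    refine Continuous.norm (continuous_pi fun b => ?_)
    exact (continuous_ztM h.cont b).comp (Continuous.prodMk_right M)
  have hpos : ∀ v, v ≠ 0 → 0 < ‖ζ v ᵥ* M‖ := by
    intro v hv
    refine norm_pos_iff.2 fun h0 => h.ne v hv ?_
    have h1 : ζ v = (ζ v ᵥ* M) ᵥ* M' := by
      rw [Matrix.vecMul_vecMul, hM, Matrix.vecMul_one]
    rw [h1, h0, Matrix.zero_vecMul]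
  let S : Set (k × k) := Metric.closedBall 0 1 ∩ {v | 1 / ‖w‖ ≤ ‖v‖}
  have hS : IsCompact S := (isCompact_closedBall (0 : k × k) 1).inter_right
    (isClosed_le continuous_const continuous_norm)
  have hS0 : ∀ v ∈ S, v ≠ 0 := by
    rintro v ⟨-, hv⟩ h0
    rw [h0, Set.mem_setOf_eq, norm_zero] at hv
    have : 0 < 1 / ‖w‖ := by positivity
    linarith
  have hsc : ∀ v : k × k, v ≠ 0 → ∃ d : k, d ≠ 0 ∧ d • v ∈ S := by
    intro v hv
    obtain ⟨d, hd, h1, h2, -⟩ := rescale_to_shell hw one_pos hv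
    exact ⟨d, hd, mem_closedBall_zero_iff.2 h1.le, h2⟩
  obtain ⟨ε, hε, hεS⟩ : ∃ ε : ℝ, 0 < ε ∧ ∀ v ∈ S, ε ≤ ‖ζ v ᵥ* M‖ := by
    rcases S.eq_empty_or_nonempty with he | hne
    · exact ⟨1, one_pos, fun v hv => by rw [he] at hv; exact hv.elim⟩
    · obtain ⟨v0, hv0, hmin⟩ := hS.exists_isMinOn hne hg.continuousOn
      exact ⟨_, hpos v0 (hS0 v0 hv0), fun v hv => hmin hv⟩
  refine ⟨ε, hε, fun v => ?_⟩
  by_cases hv : v = 0
  · rw [hv, norm_zero, zero_pow h.pos.ne', mul_zero]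
    exact norm_nonneg _
  · obtain ⟨d, hd, hdS⟩ := hsc v hv
    have h1 := hεS _ hdS
    rw [h.hom, Matrix.smul_vecMul, norm_smul, norm_pow] at h1
    have h2 : ‖d • v‖ ≤ 1 := mem_closedBall_zero_iff.1 hdS.1
    rw [norm_smul] at h2
    have hd0 : 0 < ‖d‖ := norm_pos_iff.2 hd
    have h3 : ε * (‖d‖ * ‖v‖) ^ m ≤ ‖d‖ ^ m * ‖ζ v ᵥ* M‖ := by
      calc ε * (‖d‖ * ‖v‖) ^ m ≤ ε * 1 := by
            refine mul_le_mul_of_nonneg_left (pow_le_one₀ (by positivity) h2) hε.le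
        _ = ε := mul_one _
        _ ≤ _ := h1
    rw [mul_pow] at h3
    have h4 : ‖d‖ ^ m * (ε * ‖v‖ ^ m) ≤ ‖d‖ ^ m * ‖ζ v ᵥ* M‖ := by
      calc ‖d‖ ^ m * (ε * ‖v‖ ^ m) = ε * (‖d‖ ^ m * ‖v‖ ^ m) := by ring
        _ ≤ _ := h3
    exact le_of_mul_le_mul_left h4 (pow_pos hd0 m)

/-- a small multiple of every vector is an interior point of the region -/
theorem exists_small (h : Pl m ζ) (M : Matrix (Fin n) (Fin n) k) : ∃ U : Set (k × k), IsOpen U ∧
    U ⊆ Dr ζ M ∧ ∀ e : k × k, ∃ r : k, r ≠ 0 ∧ r • e ∈ U := by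
  let U : Set (k × k) := ⋂ b, {v | ‖(ζ v ᵥ* M) b‖ < 1}
  have hU : IsOpen U := isOpen_iInter_of_finite fun b => isOpen_lt
    ((continuous_ztM h.cont b).comp (Continuous.prodMk_right M)).norm continuous_const
  have h0 : (0 : k × k) ∈ U := by
    refine Set.mem_iInter.2 fun b => ?_
    have h1 := h.hom 0 0
    rw [zero_pow h.pos.ne', zero_smul, zero_smul] at h1
    change ‖(ζ 0 ᵥ* M) b‖ < 1
    rw [h1, Matrix.zero_vecMul]
    simp
  refine ⟨U, hU, fun v hv b => (Set.mem_iInter.1 hv b).le, fun e => ?_⟩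
  have h2 : Continuous fun r : k => r • e := by fun_prop
  have h3 : ∀ᶠ r in 𝓝 (0 : k), r • e ∈ U := by
    refine h2.continuousAt.eventually_mem (hU.mem_nhds ?_)
    rw [zero_smul]
    exact h0
  have h4 : ∀ᶠ r in 𝓝[≠] (0 : k), r • e ∈ U := h3.filter_mono nhdsWithin_le_nhds
  obtain ⟨r, hr, hr0⟩ := (h4.and self_mem_nhdsWithin).exists
  exact ⟨r, hr0, hr⟩

section meas

variable [MeasurableSpace k] [BorelSpace k] (μ : Measure (k × k)) [μ.IsAddHaarMeasure]

/-- the matrices for which `C` carries half of the area -/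
def Hf (ζ : k × k → Fin n → k) (C : Set (k × k)) : Set (Matrix (Fin n) (Fin n) k) :=
  {M | μ (Dr ζ M) ≤ 2 * μ (Dr ζ M ∩ C)}

theorem measure_Dr_lt_top (h : Pl m ζ) {M M' : Matrix (Fin n) (Fin n) k} (hM : M * M' = 1) :
    μ (Dr ζ M) < ⊤ := by
  obtain ⟨ε, hε, hlow⟩ := exists_lower h hM
  have hsub : Dr ζ M ⊆ Metric.closedBall 0 (max 1 (1 / ε)) := by
    intro v hv
    have h1 : ‖ζ v ᵥ* M‖ ≤ 1 := (pi_norm_le_iff_of_nonneg zero_le_one).2 hv
    have h2 : ‖v‖ ^ m ≤ 1 / ε := by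
      rw [le_div_iff₀ hε, mul_comm]
      exact (hlow v).trans h1
    rw [mem_closedBall_zero_iff]
    rcases le_total ‖v‖ 1 with h3 | h3
    · exact h3.trans (le_max_left _ _)
    · exact ((le_self_pow₀ h3 h.pos.ne').trans h2).trans (le_max_right _ _)
  exact (measure_mono hsub).trans_lt (isCompact_closedBall _ _).measure_lt_top

/-- two closed cones which meet in the origin only and do not cover the plane -/
theorem Hf_disjoint (h : Pl m ζ) {A B : Set (k × k)}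
    (hA : IsClosed A) (hB : IsClosed B) (hAB : A ∩ B ⊆ {0}) (e : k × k)
    (heA : ∀ r : k, r ≠ 0 → r • e ∉ A) (heB : ∀ r : k, r ≠ 0 → r • e ∉ B)
    {M M' : Matrix (Fin n) (Fin n) k} (hM : M * M' = 1) (h1 : M ∈ Hf μ ζ A)
    (h2 : M ∈ Hf μ ζ B) : False := by
  set D := Dr ζ M with hD
  have hfin : μ D < ⊤ := measure_Dr_lt_top μ h hM
  obtain ⟨U, hU, hUD, hUe⟩ := exists_small h M
  obtain ⟨r, hr, hrU⟩ := hUe e
  have hW : IsOpen (U ∩ (A ∪ B)ᶜ) := hU.inter (hA.union hB).isOpen_compl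
  have hpos : 0 < μ (U ∩ (A ∪ B)ᶜ) := hW.measure_pos μ
    ⟨_, hrU, fun hc => hc.elim (heA r hr) (heB r hr)⟩
  have hmA : MeasurableSet (D ∩ A) := ((isClosed_Dr h.cont M).inter hA).measurableSet
  have hmB : MeasurableSet (D ∩ B) := ((isClosed_Dr h.cont M).inter hB).measurableSet
  have h3 : μ (D ∩ A ∪ D ∩ B) = μ (D ∩ A) + μ (D ∩ B) := by
    refine measure_union₀ hmB.nullMeasurableSet ?_
    refine measure_mono_null (t := {0}) (fun v hv => hAB ⟨hv.1.2, hv.2.2⟩) ?_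
    haveI : (𝓝[≠] (0 : k × k)).NeBot := Module.punctured_nhds_neBot k (k × k) 0
    exact measure_singleton _
  have h4 : μ (D ∩ A ∪ D ∩ B) + μ (U ∩ (A ∪ B)ᶜ) ≤ μ D := by
    rw [← measure_union _ hW.measurableSet]
    · refine measure_mono ?_
      rintro v ((hv | hv) | hv)
      · exact hv.1
      · exact hv.1
      · exact hUD hv.1
    · refine Set.disjoint_left.2 fun v hv hv' => ?_
      rcases hv with hv | hv
      · exact hv'.2 (Or.inl hv.2)
      · exact hv'.2 (Or.inr hv.2)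
  have h5 : μ D ≤ μ (D ∩ A ∪ D ∩ B) := by
    rw [h3]
    have h6 : μ D + μ D ≤ 2 * (μ (D ∩ A) + μ (D ∩ B)) := by
      rw [mul_add]
      exact add_le_add h1 h2
    rw [← two_mul] at h6
    exact (ENNReal.mul_le_mul_iff_right (by norm_num) (by norm_num)).1 h6
  have h6 : μ (D ∩ A ∪ D ∩ B) ≤ μ D := measure_mono (by
    rintro v (hv | hv)
    · exact hv.1
    · exact hv.1)
  have h7 : μ (D ∩ A ∪ D ∩ B) ≠ ⊤ := (h6.trans_lt hfin).ne
  have h8 : μ (D ∩ A ∪ D ∩ B) < μ (D ∩ A ∪ D ∩ B) + μ (U ∩ (A ∪ B)ᶜ) :=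
    ENNReal.lt_add_right h7 hpos.ne'
  exact absurd (h8.trans_le (h4.trans h5)) (lt_irrefl _)

/-- a linear automorphism scales the Haar measure -/
theorem exists_scale (L : (k × k) ≃L[k] (k × k)) : ∃ c : ENNReal,
    ∀ s : Set (k × k), μ (L ⁻¹' s) = c * μ s := by
  have h1 : (μ.map L).IsAddHaarMeasure := inferInstance
  have h2 : μ.map L = Measure.addHaarScalarFactor (μ.map L) μ • μ :=
    Measure.isAddLeftInvariant_eq_smul _ _
  refine ⟨Measure.addHaarScalarFactor (μ.map L) μ, fun s => ?_⟩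
  have h3 : μ.map L s = (Measure.addHaarScalarFactor (μ.map L) μ • μ) s := by rw [← h2]
  have h4 : μ.map L s = μ (L ⁻¹' s) := L.toHomeomorph.toMeasurableEquiv.map_apply s
  rw [← h4, h3]
  rfl

/-- ping-pong for half planes -/
theorem Hf_step {L : (k × k) ≃L[k] (k × k)} {K M : Matrix (Fin n) (Fin n) k}
    (hL : ∀ v, ζ v ᵥ* K = ζ (L v)) {C C' : Set (k × k)} (hC : MeasurableSet C)
    (hCC : ∀ v, v ∉ C → L.symm v ∈ C')
    (hM : M ∉ Hf μ ζ C) : K * M ∈ Hf μ ζ C' := by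
  set D := Dr ζ M with hD
  have hDK : Dr ζ (K * M) = L ⁻¹' D := by
    ext v
    have h1 : ζ v ᵥ* (K * M) = ζ (L v) ᵥ* M := by
      rw [← Matrix.vecMul_vecMul, hL]
    simp only [Dr, hD, Set.mem_setOf_eq, Set.mem_preimage, h1]
  obtain ⟨c, hvol⟩ := exists_scale μ L
  have h1 : μ D = μ (D ∩ C) + μ (D \ C) := (measure_inter_add_diff D hC).symm
  have h2 : 2 * μ (D ∩ C) < μ D := not_le.1 hM
  have h3 : μ D ≤ 2 * μ (D \ C) := by
    by_contra hc
    rw [not_le] at hc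
    have h4 : 2 * μ (D ∩ C) + 2 * μ (D \ C) < μ D + μ D :=
      ENNReal.add_lt_add h2 hc
    rw [← mul_add, ← h1, ← two_mul] at h4
    exact lt_irrefl _ h4
  change μ (Dr ζ (K * M)) ≤ 2 * μ (Dr ζ (K * M) ∩ C')
  rw [hDK]
  have h4 : L ⁻¹' (D \ C) ⊆ L ⁻¹' D ∩ C' := by
    intro v hv
    refine ⟨hv.1, ?_⟩
    have h5 := hCC (L v) hv.2
    rwa [ContinuousLinearEquiv.symm_apply_apply] at h5
  calc μ (L ⁻¹' D) = c * μ D := hvol D
    _ ≤ c * (2 * μ (D \ C)) := by gcongr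
    _ = 2 * μ (L ⁻¹' (D \ C)) := by rw [hvol]; ring
    _ ≤ 2 * μ (L ⁻¹' D ∩ C') := by gcongr

/-- measurability -/
theorem measurableSet_Hf (h : Continuous ζ) {G : Type} [TopologicalSpace G] [MeasurableSpace G]
    [OpensMeasurableSpace G] {f : G → Matrix (Fin n) (Fin n) k} (hf : Continuous f)
    {C : Set (k × k)} (hC : MeasurableSet C) : MeasurableSet {g | f g ∈ Hf μ ζ C} := by
  have h00 : Continuous fun p : G × (k × k) => (f p.1, p.2) :=
    (hf.comp continuous_fst).prodMk continuous_snd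
  have h0 : ∀ b, Continuous fun p : G × (k × k) => (ζ p.2 ᵥ* f p.1) b := by
    intro b
    have h01 := (continuous_ztM h b).comp h00
    simpa only [Function.comp_def] using h01
  let S : Set (G × (k × k)) := {p | ∀ b, ‖(ζ p.2 ᵥ* f p.1) b‖ ≤ 1}
  have hS : IsClosed S := by
    have h : S = ⋂ b, {p | ‖(ζ p.2 ᵥ* f p.1) b‖ ≤ 1} := by
      ext v; simp [S]
    rw [h]
    exact isClosed_iInter fun b => isClosed_le (h0 b).norm continuous_const
  have hS1 : MeasurableSet S := hS.measurableSet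
  have hS2 : MeasurableSet (S ∩ (Set.univ ×ˢ C)) := hS1.inter (MeasurableSet.univ.prod hC)
  have h1 : Measurable fun g => μ (Dr ζ (f g)) :=
    measurable_measure_prodMk_left (ν := μ) hS1
  have h2 : Measurable fun g => μ (Dr ζ (f g) ∩ C) := by
    have h4 : (fun g => μ (Dr ζ (f g) ∩ C)) =
        fun g => μ (Prod.mk g ⁻¹' (S ∩ (Set.univ ×ˢ C))) := by
      funext g
      congr 1
      ext v
      simp [S, Dr]
    rw [h4]
    exact measurable_measure_prodMk_left hS2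
  exact measurableSet_le h1 (h2.const_mul 2)

end meas

/-! ### cones and the engine -/

/-- the cone around the direction `(-t, 1)` -/
def Cm (δ : ℝ) (t : k) : Set (k × k) := {v | ‖v.1 + t * v.2‖ ≤ δ * ‖v.2‖}

/-- the cone around the direction `(1, s)` -/
def Cp (δ : ℝ) (s : k) : Set (k × k) := {v | ‖v.2 - s * v.1‖ ≤ δ * ‖v.1‖}

theorem isClosed_Cm (δ : ℝ) (t : k) : IsClosed (Cm δ t) :=
  isClosed_le (by fun_prop) (by fun_prop)

theorem isClosed_Cp (δ : ℝ) (s : k) : IsClosed (Cp δ s) :=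
  isClosed_le (by fun_prop) (by fun_prop)

theorem Cm_inter {δ : ℝ} {t t' : k} (h : 2 * δ < ‖t - t'‖) : Cm δ t ∩ Cm δ t' ⊆ {0} := by
  rintro ⟨v1, v2⟩ ⟨h1, h2⟩
  simp only [Cm, Set.mem_setOf_eq] at h1 h2
  have h3 : ‖t - t'‖ * ‖v2‖ ≤ 2 * δ * ‖v2‖ := by
    rw [← norm_mul]
    have h4 : (t - t') * v2 = (v1 + t * v2) - (v1 + t' * v2) := by ring
    rw [h4]
    exact (norm_sub_le _ _).trans (by linarith)
  have h5 : ‖v2‖ = 0 := by
    by_contra h6
    have h7 : 0 < ‖v2‖ := lt_of_le_of_ne (norm_nonneg _) (Ne.symm h6)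
    have h8 := mul_lt_mul_of_pos_right h h7
    linarith
  rw [h5, mul_zero] at h1
  have h6 : v2 = 0 := norm_eq_zero.1 h5
  have h7 : v1 + t * v2 = 0 := norm_eq_zero.1 (le_antisymm h1 (norm_nonneg _))
  rw [h6, mul_zero, add_zero] at h7
  rw [Set.mem_singleton_iff]
  exact Prod.ext h7 h6

theorem Cp_inter {δ : ℝ} {t t' : k} (h : 2 * δ < ‖t - t'‖) : Cp δ t ∩ Cp δ t' ⊆ {0} := by
  rintro ⟨v1, v2⟩ ⟨h1, h2⟩
  simp only [Cp, Set.mem_setOf_eq] at h1 h2
  have h3 : ‖t - t'‖ * ‖v1‖ ≤ 2 * δ * ‖v1‖ := by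
    rw [← norm_mul]
    have h4 : (t - t') * v1 = (v2 - t' * v1) - (v2 - t * v1) := by ring
    rw [h4]
    exact (norm_sub_le _ _).trans (by linarith)
  have h5 : ‖v1‖ = 0 := by
    by_contra h6
    have h7 : 0 < ‖v1‖ := lt_of_le_of_ne (norm_nonneg _) (Ne.symm h6)
    have h8 := mul_lt_mul_of_pos_right h h7
    linarith
  rw [h5, mul_zero] at h1
  have h6 : v1 = 0 := norm_eq_zero.1 h5
  have h7 : v2 - t * v1 = 0 := norm_eq_zero.1 (le_antisymm h1 (norm_nonneg _))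
  rw [h6, mul_zero, sub_zero] at h7
  rw [Set.mem_singleton_iff]
  exact Prod.ext h6 h7

/-- the linear map of a ping-pong word -/
noncomputable def Lw (s t r c : k) (hr : r ≠ 0) (hc : c ≠ 0) : (k × k) ≃L[k] (k × k) where
  toFun v := (r * (c * v.1) - t * (r * (v.2 - s * v.1)), r * (v.2 - s * v.1))
  invFun u := ((u.1 + t * u.2) / (r * c), u.2 / r + s * ((u.1 + t * u.2) / (r * c)))
  map_add' u v := by
    refine Prod.ext ?_ ?_
    · simp only [Prod.fst_add, Prod.snd_add]; ring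
    · simp only [Prod.fst_add, Prod.snd_add]; ring
  map_smul' d v := by
    refine Prod.ext ?_ ?_
    · simp only [Prod.smul_fst, Prod.smul_snd, smul_eq_mul, RingHom.id_apply]; ring
    · simp only [Prod.smul_fst, Prod.smul_snd, smul_eq_mul, RingHom.id_apply]; ring
  left_inv v := by
    refine Prod.ext ?_ ?_
    · simp only
      field_simp
      ring
    · simp only
      field_simp
      ring
  right_inv u := by
    refine Prod.ext ?_ ?_
    · simp only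
      field_simp
      ring
    · simp only
      field_simp
      ring
  continuous_toFun := by
    change Continuous fun v : k × k =>
      (r * (c * v.1) - t * (r * (v.2 - s * v.1)), r * (v.2 - s * v.1))
    fun_prop
  continuous_invFun := by
    change Continuous fun u : k × k =>
      ((u.1 + t * u.2) / (r * c), u.2 / r + s * ((u.1 + t * u.2) / (r * c)))
    fun_prop

theorem Lw_symm_mem {s t r c : k} {δ : ℝ} (hr : r ≠ 0) (hc : c ≠ 0) (hδ : 0 < δ)
    (hcδ : ‖c‖ ≤ δ ^ 2) (v : k × k) (hv : v ∉ Cm δ t) : (Lw s t r c hr hc).symm v ∈ Cp δ s := by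
  have h1 : δ * ‖v.2‖ < ‖v.1 + t * v.2‖ := not_le.1 hv
  change ‖v.2 / r + s * ((v.1 + t * v.2) / (r * c)) - s * ((v.1 + t * v.2) / (r * c))‖ ≤
    δ * ‖(v.1 + t * v.2) / (r * c)‖
  have hr0 : 0 < ‖r‖ := norm_pos_iff.2 hr
  have hc0 : 0 < ‖c‖ := norm_pos_iff.2 hc
  rw [add_sub_cancel_right, norm_div, norm_div, norm_mul]
  rw [div_le_iff₀ hr0]
  have h2 : δ * (‖v.1 + t * v.2‖ / (‖r‖ * ‖c‖)) * ‖r‖ = δ * ‖v.1 + t * v.2‖ / ‖c‖ := by
    field_simp
  rw [h2, le_div_iff₀ hc0]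
  calc ‖v.2‖ * ‖c‖ ≤ ‖v.2‖ * δ ^ 2 := mul_le_mul_of_nonneg_left hcδ (norm_nonneg _)
    _ = δ * (δ * ‖v.2‖) := by ring
    _ ≤ δ * ‖v.1 + t * v.2‖ := mul_le_mul_of_nonneg_left h1.le hδ.le

/-- **The engine.** If `K` contains elements which act on the planar family as the shears with
small parameters, and the `b N` act as dilations, then there are ping-pong families. -/
theorem pp_of {G : Type} [Group G] [TopologicalSpace G] [MeasurableSpace G] [BorelSpace G]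
    {mt : G → Matrix (Fin n) (Fin n) k} (hmt : Continuous mt) (hone : mt 1 = 1)
    (hmul : ∀ g g', mt (g * g') = mt g * mt g') (h : Pl m ζ) {b : ℕ → G} {K : Set G}
    (hE : ∀ t : k, ‖t‖ ≤ 1 → ∃ g ∈ K, ∀ v, ζ v ᵥ* mt g = ζ (v.1 - t * v.2, v.2))
    (hF : ∀ t : k, ‖t‖ ≤ 1 → ∃ g ∈ K, ∀ v, ζ v ᵥ* mt g = ζ (v.1, v.2 - t * v.1))
    {r c : ℕ → k} (hr : ∀ N, r N ≠ 0) (hc : ∀ N, c N ≠ 0) (hc0 : Tendsto c atTop (𝓝 0))
    (hb : ∀ N v, ζ v ᵥ* mt (b N) = ζ (r N * (c N * v.1), r N * v.2)) (p : ℕ) :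
    ∃ N₀, ∀ N, N₀ ≤ N → ∃ (κ κ' : Fin p → G) (Bm Bp : Fin p → Set G),
      (∀ l, κ l ∈ K) ∧ (∀ l, κ' l ∈ K) ∧
      (∀ l, MeasurableSet (Bm l)) ∧ (∀ l, MeasurableSet (Bp l)) ∧
      (∀ l l', l ≠ l' → Disjoint (Bm l) (Bm l')) ∧
      (∀ l l', l ≠ l' → Disjoint (Bp l) (Bp l')) ∧
      ∀ l x, x ∉ Bm l → κ l * b N * κ' l * x ∈ Bp l := by
  letI : MeasurableSpace k := borel k
  haveI : BorelSpace k := ⟨rfl⟩
  let μ : Measure (k × k) := Measure.addHaar
  have hinv : ∀ g, mt g * mt g⁻¹ = 1 := fun g => by rw [← hmul, mul_inv_cancel, hone]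
  obtain ⟨t, η, hη, -, ht1, htt⟩ := H701.exists_pts k p
  set δ : ℝ := η / 3 with hδ
  have hδ0 : 0 < δ := by positivity
  have h2δ : ∀ l l', l ≠ l' → 2 * δ < ‖t l - t l'‖ := fun l l' hll =>
    lt_of_lt_of_le (by rw [hδ]; linarith) (htt l l' hll)
  have hlim : ∀ᶠ N in atTop, ‖c N‖ ≤ δ ^ 2 := by
    have h1 := hc0.norm
    rw [norm_zero] at h1
    exact h1.eventually_le_const (by positivity)
  obtain ⟨N₀, hN₀⟩ := hlim.exists_forall_of_atTop
  refine ⟨N₀, fun N hN => ?_⟩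
  choose κ' hκ'K hκ' using fun l => hE (t l) (ht1 l)
  choose κ hκK hκ using fun l => hF (t l) (ht1 l)
  refine ⟨κ, κ', fun l => {g | mt g ∈ Hf μ ζ (Cm δ (t l))},
    fun l => {g | mt g ∈ Hf μ ζ (Cp δ (t l))}, hκK, hκ'K, fun l => ?_,
    fun l => ?_, fun l l' hll => ?_, fun l l' hll => ?_, fun l x hx => ?_⟩
  · exact measurableSet_Hf μ h.cont hmt (isClosed_Cm _ _).measurableSet
  · exact measurableSet_Hf μ h.cont hmt (isClosed_Cp _ _).measurableSet
  · refine Set.disjoint_left.2 fun g hg hg' => ?_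
    refine Hf_disjoint μ h (isClosed_Cm _ _) (isClosed_Cm _ _) (Cm_inter (h2δ l l' hll))
      (1, 0) (fun c hc hh => ?_) (fun c hc hh => ?_) (hinv g) hg hg'
    · simp only [Cm, Prod.smul_mk, smul_eq_mul, Set.mem_setOf_eq, mul_one, mul_zero, add_zero,
        norm_zero] at hh
      exact absurd (norm_pos_iff.2 hc) (not_lt.2 hh)
    · simp only [Cm, Prod.smul_mk, smul_eq_mul, Set.mem_setOf_eq, mul_one, mul_zero, add_zero,
        norm_zero] at hh
      exact absurd (norm_pos_iff.2 hc) (not_lt.2 hh)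
  · refine Set.disjoint_left.2 fun g hg hg' => ?_
    refine Hf_disjoint μ h (isClosed_Cp _ _) (isClosed_Cp _ _) (Cp_inter (h2δ l l' hll))
      (0, 1) (fun c hc hh => ?_) (fun c hc hh => ?_) (hinv g) hg hg'
    · simp only [Cp, Prod.smul_mk, smul_eq_mul, Set.mem_setOf_eq, mul_one, mul_zero, sub_zero,
        norm_zero] at hh
      exact absurd (norm_pos_iff.2 hc) (not_lt.2 hh)
    · simp only [Cp, Prod.smul_mk, smul_eq_mul, Set.mem_setOf_eq, mul_one, mul_zero, sub_zero,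
        norm_zero] at hh
      exact absurd (norm_pos_iff.2 hc) (not_lt.2 hh)
  · change mt (κ l * b N * κ' l * x) ∈ Hf μ ζ (Cp δ (t l))
    rw [hmul]
    refine Hf_step μ (L := Lw (t l) (t l) (r N) (c N) (hr N) (hc N)) (fun v => ?_)
      (isClosed_Cm δ (t l)).measurableSet
      (Lw_symm_mem (hr N) (hc N) hδ0 (hN₀ N hN)) hx
    rw [hmul, hmul, ← Matrix.vecMul_vecMul, ← Matrix.vecMul_vecMul, hκ, hb, hκ']
    rfl

end Vale.Agent.P092.H660.Rp
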