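import Mathlib
import Vale.Agent.P092.H213.Rp.Defs
import Vale.Agent.P092.H660.Rp.Pp

/-!
P092, project RP (helper660): the `SL_2`-string of a functional, as homogeneous polynomials in two
variables, over any field of characteristic zero.
-/

set_option linter.all false

open Polynomial Module

namespace Vale.Agent.P092.H660.Rp

open Vale.Agent.P092.H213.Rp (ex)

section flow

variable {k V : Type} [Field k] [AddCommGroup V] [Module k V]

theorem coeff_flow {X : Module.End k V} {P : V → k[X]}
    (hP : ∀ x, derivative (P x) = P (X x)) (i : ℕ) : ∀ x,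
    (P x).coeff i * (i.factorial : k) = (P ((X ^ i) x)).coeff 0 := by
  induction i with
  | zero => intro x; simp
  | succ i ih =>
    intro x
    have h1 : (X ^ (i + 1)) x = (X ^ i) (X x) := by
      rw [pow_succ]; rfl
    rw [h1, ← ih (X x), ← hP, coeff_derivative, Nat.factorial_succ]
    push_cast
    ring

theorem pow_eq_zero_of_nil [FiniteDimensional k V] {X : Module.End k V} (hX : IsNilpotent X)
    {i : ℕ} (hi : finrank k V < i) : X ^ i = 0 := by
  obtain ⟨N, hN⟩ := hX
  have h1 : X ^ finrank k V = 0 := by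
    refine LinearMap.ext fun x => ?_
    have h2 := Module.End.ker_pow_le_ker_pow_finrank X N
    have h3 : x ∈ LinearMap.ker (X ^ N) := by rw [hN]; simp
    exact h2 h3
  rw [← Nat.sub_add_cancel hi.le, pow_add, h1, mul_zero]

/-- polynomial flow of a nilpotent endomorphism -/
theorem flow [CharZero k] [FiniteDimensional k V] {X : Module.End k V} (hX : IsNilpotent X)
    {P : V → k[X]} (hP : ∀ x, derivative (P x) = P (X x)) {Q : V →ₗ[k] k}
    (hQ : ∀ x, (P x).coeff 0 = Q x) (t : k) (x : V) : (P x).eval t = Q (ex (t • X) x) := by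
  have hc : ∀ i, (P x).coeff i = ((i.factorial : k)⁻¹) * Q ((X ^ i) x) := by
    intro i
    have h1 := coeff_flow hP i x
    have h2 : (i.factorial : k) ≠ 0 := Nat.cast_ne_zero.2 (Nat.factorial_ne_zero i)
    rw [hQ] at h1
    rw [← h1]
    field_simp
  have hc0 : ∀ i, finrank k V < i → (P x).coeff i = 0 := by
    intro i hi
    rw [hc, pow_eq_zero_of_nil hX hi]
    simp
  have h1 : (P x).eval t = ∑ i ∈ Finset.range (finrank k V + 1), (P x).coeff i * t ^ i := by
    refine eval_eq_sum_range' (Nat.lt_succ_of_le ?_) t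
    rw [natDegree_le_iff_coeff_eq_zero]
    exact hc0
  rw [h1, ex, LinearMap.sum_apply, map_sum]
  refine Finset.sum_congr rfl fun i _ => ?_
  rw [hc, _root_.smul_pow, LinearMap.smul_apply, LinearMap.smul_apply, map_smul, map_smul, smul_eq_mul,
    smul_eq_mul]
  ring

end flow

/-- the string of a functional `φ` which is killed by `f` -/
structure St {k V : Type} [Field k] [AddCommGroup V] [Module k V] (e f : Module.End k V)
    (φ : V →ₗ[k] k) (m : ℕ) : Prop where
  zero : ∀ x, φ (f x) = 0
  up : ∀ (j : ℕ) x, φ ((e ^ (j + 1)) (f x)) = ((j : k) + 1) * ((m : k) - j) * φ ((e ^ j) x)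
  top : ∀ x, φ ((e ^ (m + 1)) x) = 0
  ne : ∃ x, φ ((e ^ m) x) ≠ 0
  ne0 : φ ≠ 0

section str

variable {k V : Type} [Field k] [CharZero k] [AddCommGroup V] [Module k V]
  {e f h : Module.End k V} {φ : V →ₗ[k] k} {m : ℕ}

theorem St.of_triple (he : IsNilpotent e) (h1 : e * f - f * e = h) (h2 : h * e - e * h = 2 • e)
    (hf : ∀ x, φ (f x) = 0) {M : ℤ} (hh : ∀ x, φ (h x) = (M : k) * φ x) (hφ : φ ≠ 0) :
    ∃ m : ℕ, (m : ℤ) = M ∧ St e f φ m := by
  have hef : ∀ x, e (f x) = f (e x) + h x := by
    intro x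
    rw [← h1]
    simp [Module.End.mul_apply]
  have heh : ∀ x, e (h x) = h (e x) - (2 : k) • e x := by
    intro x
    have h3 := LinearMap.congr_fun h2 x
    simp only [LinearMap.sub_apply, Module.End.mul_apply, LinearMap.smul_apply] at h3
    have h4 : (2 : k) • e x = (2 : ℕ) • e x := by
      rw [two_smul, two_smul]
    rw [h4, ← h3]
    abel
  have hw : ∀ (j : ℕ) x, φ ((e ^ j) (h x)) = ((M : k) - 2 * j) * φ ((e ^ j) x) := by
    intro j
    induction j with
    | zero => intro x; simp [hh]
    | succ j ih =>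
      intro x
      have h3 : ∀ y, (e ^ (j + 1)) y = (e ^ j) (e y) := fun y => by rw [pow_succ]; rfl
      rw [h3, h3, heh, map_sub, map_sub, ih, map_smul, map_smul, smul_eq_mul]
      push_cast
      ring
  have hup : ∀ (j : ℕ) x, φ ((e ^ (j + 1)) (f x)) =
      ((j : k) + 1) * ((M : k) - j) * φ ((e ^ j) x) := by
    intro j
    induction j with
    | zero =>
      intro x
      rw [zero_add, pow_one, hef, map_add, hf, hh]
      simp
    | succ j ih =>
      intro x
      have h3 : ∀ y, (e ^ (j + 1 + 1)) y = (e ^ (j + 1)) (e y) := fun y => by rw [pow_succ]; rfl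
      have h4 : ∀ y, (e ^ (j + 1)) y = (e ^ j) (e y) := fun y => by rw [pow_succ]; rfl
      rw [h3, hef, map_add, map_add, ih, hw, h4 x]
      push_cast
      ring
  have hex : ∃ j : ℕ, ∀ x, φ ((e ^ j) x) = 0 := by
    obtain ⟨N, hN⟩ := he
    exact ⟨N, fun x => by rw [hN]; simp⟩
  classical
  have h0 : Nat.find hex ≠ 0 := by
    intro h3
    have h4 := Nat.find_spec hex
    rw [h3] at h4
    exact hφ (LinearMap.ext fun x => by simpa using h4 x)
  obtain ⟨m, hm⟩ : ∃ m, Nat.find hex = m + 1 := Nat.exists_eq_succ_of_ne_zero h0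
  have hm1 : ∀ x, φ ((e ^ (m + 1)) x) = 0 := by rw [← hm]; exact Nat.find_spec hex
  have hm0 : ∃ x, φ ((e ^ m) x) ≠ 0 := by
    have h3 := Nat.find_min hex (m := m) (by omega)
    push Not at h3
    exact h3
  have hmM : (m : k) = (M : k) := by
    obtain ⟨x, hx⟩ := hm0
    have h3 := hup m x
    rw [hm1] at h3
    rcases mul_eq_zero.1 h3.symm with h4 | h4
    · rcases mul_eq_zero.1 h4 with h5 | h5
      · exact absurd h5 (Nat.cast_add_one_ne_zero m)
      · exact (sub_eq_zero.1 h5).symm
    · exact absurd h4 hx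
  refine ⟨m, by exact_mod_cast hmM, hf, fun j x => ?_, hm1, hm0, hφ⟩
  rw [hup, hmM]

variable (e φ m) in
/-- `Z(v) = ∑ v₂^(m-j) (-v₁)^j / j! · φ e^j` -/
noncomputable def Z (v : k × k) : V →ₗ[k] k :=
  ∑ j ∈ Finset.range (m + 1), (v.2 ^ (m - j) * (-v.1) ^ j / (j.factorial : k)) • (φ ∘ₗ (e ^ j))

theorem Z_apply (v : k × k) (x : V) : Z e φ m v x =
    ∑ j ∈ Finset.range (m + 1), v.2 ^ (m - j) * (-v.1) ^ j / (j.factorial : k) * φ ((e ^ j) x) := by
  simp [Z, LinearMap.sum_apply]

theorem Z_smul (c : k) (v : k × k) : Z e φ m (c * v.1, c * v.2) = c ^ m • Z e φ m v := by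
  refine LinearMap.ext fun x => ?_
  rw [LinearMap.smul_apply, smul_eq_mul, Z_apply, Z_apply, Finset.mul_sum]
  refine Finset.sum_congr rfl fun j hj => ?_
  have hj' : j ≤ m := Nat.lt_succ_iff.1 (Finset.mem_range.1 hj)
  have h1 : c ^ m = c ^ (m - j) * c ^ j := by rw [← pow_add, Nat.sub_add_cancel hj']
  rw [h1, mul_pow, neg_mul_eq_mul_neg, mul_pow]
  ring

/-- the action of a torus element -/
theorem Z_tor {T : Module.End k V} {r c : k} (hT : ∀ x, φ (T x) = r ^ m * φ x)
    (hc : ∀ x, e (T x) = c • T (e x)) (v : k × k) (x : V) :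
    Z e φ m v (T x) = Z e φ m (r * (c * v.1), r * v.2) x := by
  have h1 : ∀ (j : ℕ) x, (e ^ j) (T x) = c ^ j • T ((e ^ j) x) := by
    intro j
    induction j with
    | zero => intro x; simp
    | succ j ih =>
      intro x
      have h3 : ∀ y, (e ^ (j + 1)) y = (e ^ j) (e y) := fun y => by rw [pow_succ]; rfl
      rw [h3, h3, hc, map_smul, ih, smul_smul, pow_succ, mul_comm]
  have h2 := congrArg (fun l : V →ₗ[k] k => l x) (Z_smul (e := e) (φ := φ) (m := m) r
    (c * v.1, v.2))
  simp only [LinearMap.smul_apply, smul_eq_mul] at h2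
  rw [h2, Z_apply, Z_apply, Finset.mul_sum]
  refine Finset.sum_congr rfl fun j _ => ?_
  rw [h1, map_smul, hT, smul_eq_mul, neg_mul_eq_mul_neg, mul_pow]
  ring

variable [FiniteDimensional k V]

/-- the action of `exp(te)` -/
theorem Z_e (he : IsNilpotent e) (hs : St e f φ m) (v : k × k) (t : k) (x : V) :
    Z e φ m v (ex (t • e) x) = Z e φ m (v.1 - t * v.2, v.2) x := by
  let P : V → k[X] := fun x => ∑ j ∈ Finset.range (m + 1),
    C (v.2 ^ (m - j) / (j.factorial : k) * φ ((e ^ j) x)) * (C (-v.1) + C v.2 * X) ^ j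
  have hP : ∀ x, derivative (P x) = P (e x) := by
    intro x
    have h3 : ∀ (j : ℕ) y, (e ^ (j + 1)) y = (e ^ j) (e y) := fun j y => by rw [pow_succ]; rfl
    simp only [P, derivative_sum]
    rw [Finset.sum_range_succ', Finset.sum_range_succ (n := m)]
    have h4 : φ ((e ^ m) (e x)) = 0 := by rw [← h3]; exact hs.top x
    rw [h4]
    simp only [pow_zero, mul_one, derivative_C, add_zero, mul_zero, map_zero, zero_mul]
    refine Finset.sum_congr rfl fun j hj => ?_
    have hj' : j < m := Finset.mem_range.1 hj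
    have h5 : derivative ((C (-v.1) + C v.2 * X : k[X]) ^ (j + 1)) =
        C (((j + 1 : ℕ) : k) * v.2) * (C (-v.1) + C v.2 * X) ^ j := by
      rw [derivative_pow_succ]
      simp only [derivative_add, derivative_C, derivative_C_mul_X, zero_add]
      simp only [map_mul, map_add, map_natCast, map_one]
      push_cast
      ring
    rw [derivative_C_mul, h5, ← mul_assoc, ← C_mul]
    congr 2
    have h6 : m - j = (m - (j + 1)) + 1 := by omega
    have h8 : (j.factorial : k) ≠ 0 := Nat.cast_ne_zero.2 (Nat.factorial_ne_zero j)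
    have h9 : ((j : k) + 1) ≠ 0 := Nat.cast_add_one_ne_zero j
    rw [h6, h3, pow_succ, Nat.factorial_succ]
    push_cast
    field_simp
  have hev : ∀ (t : k) x, (P x).eval t = Z e φ m (v.1 - t * v.2, v.2) x := by
    intro t x
    rw [Z_apply]
    simp only [P, eval_finset_sum]
    refine Finset.sum_congr rfl fun j _ => ?_
    simp only [eval_mul, eval_C, eval_pow, eval_add, eval_X]
    have h4 : -v.1 + v.2 * t = -(v.1 - t * v.2) := by ring
    rw [h4]
    ring
  have hQ : ∀ x, (P x).coeff 0 = Z e φ m v x := by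
    intro x
    rw [coeff_zero_eq_eval_zero, hev]
    simp
  rw [← hev]
  exact (flow he hP hQ t x).symm

/-- the action of `exp(tf)` -/
theorem Z_f (hfn : IsNilpotent f) (hs : St e f φ m) (v : k × k) (t : k) (x : V) :
    Z e φ m v (ex (t • f) x) = Z e φ m (v.1, v.2 - t * v.1) x := by
  let P : V → k[X] := fun x => ∑ j ∈ Finset.range (m + 1),
    C ((-v.1) ^ j / (j.factorial : k) * φ ((e ^ j) x)) * (C v.2 + C (-v.1) * X) ^ (m - j)
  have hP : ∀ x, derivative (P x) = P (f x) := by
    intro x
    simp only [P, derivative_sum]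
    rw [Finset.sum_range_succ, Finset.sum_range_succ' (n := m)]
    have h4 : φ ((e ^ 0) (f x)) = 0 := by simpa using hs.zero x
    rw [h4]
    simp only [Nat.sub_self, pow_zero, mul_one, derivative_C, add_zero, mul_zero, map_zero,
      zero_mul]
    refine Finset.sum_congr rfl fun j hj => ?_
    have hj' : j < m := Finset.mem_range.1 hj
    obtain ⟨d, hd⟩ : ∃ d, m = j + (d + 1) := ⟨m - j - 1, by omega⟩
    have hd1 : m - j = d + 1 := by omega
    have hd2 : m - (j + 1) = d := by omega
    have h5 : derivative ((C v.2 + C (-v.1) * X : k[X]) ^ (d + 1)) =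
        C (((d + 1 : ℕ) : k) * (-v.1)) * (C v.2 + C (-v.1) * X) ^ d := by
      rw [derivative_pow_succ]
      simp only [derivative_add, derivative_C, derivative_C_mul_X, zero_add]
      simp only [map_mul, map_add, map_natCast, map_one]
      push_cast
      ring
    rw [hd1, hd2, derivative_C_mul, h5, ← mul_assoc, ← C_mul]
    congr 2
    have h8 : (j.factorial : k) ≠ 0 := Nat.cast_ne_zero.2 (Nat.factorial_ne_zero j)
    have h9 : ((j : k) + 1) ≠ 0 := Nat.cast_add_one_ne_zero j
    have h10 : (m : k) - j = d + 1 := by rw [hd]; push_cast; ring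
    rw [hs.up, h10, pow_succ, Nat.factorial_succ]
    push_cast
    field_simp
  have hev : ∀ (t : k) x, (P x).eval t = Z e φ m (v.1, v.2 - t * v.1) x := by
    intro t x
    rw [Z_apply]
    simp only [P, eval_finset_sum]
    refine Finset.sum_congr rfl fun j _ => ?_
    simp only [eval_mul, eval_C, eval_pow, eval_add, eval_X]
    have h4 : v.2 + -v.1 * t = v.2 - t * v.1 := by ring
    rw [h4]
    ring
  have hQ : ∀ x, (P x).coeff 0 = Z e φ m v x := by
    intro x
    rw [coeff_zero_eq_eval_zero, hev]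
    simp
  rw [← hev]
  exact (flow hfn hP hQ t x).symm

theorem Z_ne (he : IsNilpotent e) (hs : St e f φ m) {v : k × k} (hv : v ≠ 0) :
    Z e φ m v ≠ 0 := by
  intro h0
  by_cases h2 : v.2 = 0
  · have h1 : v.1 ≠ 0 := fun h1 => hv (Prod.ext h1 h2)
    obtain ⟨x, hx⟩ := hs.ne
    have h3 := LinearMap.congr_fun h0 x
    rw [Z_apply, Finset.sum_eq_single m] at h3
    · rw [Nat.sub_self, pow_zero, one_mul, LinearMap.zero_apply] at h3
      rcases mul_eq_zero.1 h3 with h4 | h4
      · rcases div_eq_zero_iff.1 h4 with h5 | h5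
        · exact absurd h5 (pow_ne_zero m (neg_ne_zero.2 h1))
        · exact Nat.cast_ne_zero.2 (Nat.factorial_ne_zero m) h5
      · exact hx h4
    · intro j hj hjm
      have hj' : j < m := lt_of_le_of_ne (Nat.lt_succ_iff.1 (Finset.mem_range.1 hj)) hjm
      rw [h2, zero_pow (by omega)]
      ring
    · intro h4
      exact absurd (Finset.mem_range.2 (Nat.lt_succ_self m)) h4
  · apply hs.ne0
    refine LinearMap.ext fun x => ?_
    have h3 : Z e φ m (0, v.2) x = 0 := by
      have h4 := Z_e he hs v (v.1 / v.2) x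
      rw [h0, LinearMap.zero_apply, div_mul_cancel₀ _ h2, sub_self] at h4
      exact h4.symm
    rw [Z_apply, Finset.sum_eq_single 0] at h3
    · simp only [Nat.sub_zero, pow_zero, mul_one, Nat.factorial_zero, Nat.cast_one, div_one] at h3
      rcases mul_eq_zero.1 h3 with h4 | h4
      · exact absurd h4 (pow_ne_zero m h2)
      · simpa using h4
    · intro j _ hj
      rw [neg_zero, zero_pow hj]
      ring
    · intro h4
      exact absurd (Finset.mem_range.2 (Nat.succ_pos m)) h4

end str

end Vale.Agent.P092.H660.Rp
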