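import Mathlib
import Vale.Agent.P092.H213.Rp.Defs
import Vale.Agent.P092.H660.Rp.Str

/-!
P092, project RP (helper660): weights. The Cartan matrix of the simple roots is invertible and
weight vectors of nonzero weight are ad-nilpotent.
-/

set_option linter.all false

open Module

namespace Vale.Agent.P092.H660.Rp

open Vale.Agent.P092.H213.Rp (ex eu Nil W tor Rt)

variable {k L : Type} [Field k] [LieRing L] [LieAlgebra k L] {n r : ℕ}
  {b : Basis (Fin n) k L} {wt : Fin n → Fin r → ℤ} {E F H : Fin r → L}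

theorem mem_W {x : L} {μ : Fin r → ℤ} : x ∈ W b wt μ ↔ ∀ i, b.repr x i ≠ 0 → wt i = μ := by
  have h1 : W b wt μ = Submodule.span k (b '' {i | wt i = μ}) := rfl
  rw [h1, b.mem_span_image]
  constructor
  · intro h i hi
    exact h (Finset.mem_coe.2 (Finsupp.mem_support_iff.2 hi))
  · intro h i hi
    exact h i (Finsupp.mem_support_iff.1 (Finset.mem_coe.1 hi))

theorem basis_mem_W (i : Fin n) : b i ∈ W b wt (wt i) :=
  Submodule.subset_span ⟨i, rfl, rfl⟩

theorem W_eq_zero {μ : Fin r → ℤ} (h : ∀ i, wt i ≠ μ) {x : L} (hx : x ∈ W b wt μ) : x = 0 := by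
  have h1 : b.repr x = 0 := by
    ext i
    by_contra hi
    exact h i (mem_W.1 hx i hi)
  exact b.repr.map_eq_zero_iff.1 h1

theorem exists_wt {μ : Fin r → ℤ} {x : L} (hx : x ∈ W b wt μ) (h0 : x ≠ 0) : ∃ i, wt i = μ := by
  by_contra h
  push Not at h
  exact h0 (W_eq_zero h hx)

/-- an endomorphism which acts on the basis through the weights -/
theorem act_W {T : Module.End k L} {g : (Fin r → ℤ) → k} (hT : ∀ i, T (b i) = g (wt i) • b i)
    {μ : Fin r → ℤ} {x : L} (hx : x ∈ W b wt μ) : T x = g μ • x := by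
  refine Submodule.span_induction (p := fun x _ => T x = g μ • x) ?_ ?_ ?_ ?_ hx
  · rintro _ ⟨i, hi, rfl⟩
    rw [hT, hi]
  · simp
  · intro x y _ _ h1 h2
    rw [map_add, h1, h2, smul_add]
  · intro c x _ h1
    rw [map_smul, h1, smul_comm]

/-- bracket with a weight vector and a semisimple endomorphism -/
theorem act_lie (hg : ∀ μ ν : Fin r → ℤ, ∀ x ∈ W b wt μ, ∀ y ∈ W b wt ν, ⁅x, y⁆ ∈ W b wt (μ + ν))
    {T : Module.End k L} {g : (Fin r → ℤ) → k} (hT : ∀ i, T (b i) = g (wt i) • b i)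
    {ν : Fin r → ℤ} {x : L} (hx : x ∈ W b wt ν) {c : k} (hc : ∀ μ, c * g (ν + μ) = g μ) (y : L) :
    ⁅x, T y⁆ = c • T ⁅x, y⁆ := by
  have h1 : (LieAlgebra.ad k L x) ∘ₗ T = c • (T ∘ₗ (LieAlgebra.ad k L x)) := by
    refine b.ext fun i => ?_
    rw [LinearMap.comp_apply, LinearMap.smul_apply, LinearMap.comp_apply, hT, map_smul,
      LieAlgebra.ad_apply, act_W hT (hg _ _ x hx _ (basis_mem_W i)), smul_smul, hc]
  have h2 := LinearMap.congr_fun h1 y
  simpa using h2

theorem nil_of_W (hg : ∀ μ ν : Fin r → ℤ, ∀ x ∈ W b wt μ, ∀ y ∈ W b wt ν, ⁅x, y⁆ ∈ W b wt (μ + ν))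
    {ν : Fin r → ℤ} (hν : ν ≠ 0) {x : L} (hx : x ∈ W b wt ν) : Nil k x := by
  obtain ⟨j, hj⟩ : ∃ j, ν j ≠ 0 := by
    by_contra h
    push Not at h
    exact hν (funext h)
  set S : ℤ := ∑ i, |wt i j| with hS
  have hS0 : 0 ≤ S := Finset.sum_nonneg fun i _ => abs_nonneg _
  have hiS : ∀ i, |wt i j| ≤ S := fun i =>
    Finset.single_le_sum (f := fun i => |wt i j|) (fun i _ => abs_nonneg _) (Finset.mem_univ i)
  have hstep : ∀ (N : ℕ) (i : Fin n),
      ((LieAlgebra.ad k L x) ^ N) (b i) ∈ W b wt ((N : ℤ) • ν + wt i) := by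
    intro N i
    induction N with
    | zero => simpa using basis_mem_W i
    | succ N ih =>
      have h3 : ((LieAlgebra.ad k L x) ^ (N + 1)) (b i) =
          ⁅x, ((LieAlgebra.ad k L x) ^ N) (b i)⁆ := by
        rw [pow_succ']; rfl
      rw [h3]
      have h4 := hg _ _ x hx _ ih
      have h5 : ((N + 1 : ℕ) : ℤ) • ν + wt i = ν + ((N : ℤ) • ν + wt i) := by
        push_cast
        rw [add_smul, one_smul]
        abel
      rw [h5]
      exact h4
  refine ⟨(2 * S + 1).toNat, b.ext fun i => ?_⟩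
  rw [LinearMap.zero_apply]
  refine W_eq_zero (fun i' hi' => ?_) (hstep _ i)
  have h1 := congrFun hi' j
  rw [Pi.add_apply, Pi.smul_apply, smul_eq_mul, Int.toNat_of_nonneg (by omega)] at h1
  have h2 : |(2 * S + 1) * ν j| ≤ 2 * S := by
    have h3 : (2 * S + 1) * ν j = wt i' j - wt i j := by linarith
    rw [h3]
    exact (abs_sub _ _).trans (by linarith [hiS i, hiS i'])
  rw [abs_mul, abs_of_nonneg (by omega : 0 ≤ 2 * S + 1)] at h2
  have h3 := Int.one_le_abs hj
  nlinarith

variable [CharZero k]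

section cartan

/-- the linear form on the weights -/
def lf (c μ : Fin r → ℤ) : ℤ := ∑ j, μ j * c j

theorem lf_add (c μ ν : Fin r → ℤ) : lf c (μ + ν) = lf c μ + lf c ν := by
  simp [lf, add_mul, Finset.sum_add_distrib]

theorem lf_neg (c μ : Fin r → ℤ) : lf c (-μ) = -lf c μ := by
  simp [lf]

theorem lf_single (c : Fin r → ℤ) (a : Fin r) : lf c (Pi.single a 1) = c a := by
  classical
  rw [lf, Finset.sum_eq_single a]
  · simp
  · intro j _ hj
    rw [Pi.single_eq_of_ne hj, zero_mul]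
  · intro h
    exact absurd (Finset.mem_univ a) h

/-- trace of an endomorphism which multiplies the basis -/
theorem trace_diag {T : Module.End k L} {g : Fin n → k} (hT : ∀ i, T (b i) = g i • b i) :
    LinearMap.trace k L T = ∑ i, g i := by
  rw [LinearMap.trace_eq_matrix_trace k b, Matrix.trace]
  refine Finset.sum_congr rfl fun i _ => ?_
  rw [Matrix.diag_apply, LinearMap.toMatrix_apply, hT, map_smul, Finsupp.smul_apply,
    b.repr_self, Finsupp.single_eq_same, smul_eq_mul, mul_one]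

theorem single_ne (a : Fin r) : (Pi.single a 1 : Fin r → ℤ) ≠ 0 := by
  intro h
  have := congrFun h a
  simp at this

theorem neg_single_ne (a : Fin r) : (-Pi.single a 1 : Fin r → ℤ) ≠ 0 :=
  neg_ne_zero.2 (single_ne a)

/-- the eigenvalue of the coroot on the root is two -/
theorem coroot_self (h : Rt b wt E F H) (a : Fin r) {c : Fin r → ℤ}
    (hc : ∀ i, ⁅H a, b i⁆ = ((lf c (wt i) : ℤ) : k) • b i) : c a = 2 := by
  have h1 : ⁅H a, E a⁆ = ((lf c (Pi.single a 1) : ℤ) : k) • E a :=
    act_W (b := b) (wt := wt) (T := LieAlgebra.ad k L (H a)) (g := fun μ => ((lf c μ : ℤ) : k)) hc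
      (h.wE a)
  rw [(h.tri a).lie_h_e_smul k, lf_single] at h1
  have h2 := sub_eq_zero.2 h1
  rw [← sub_smul] at h2
  rcases smul_eq_zero.1 h2 with h3 | h3
  · have h4 : ((2 : ℤ) : k) = (c a : k) := by push_cast; exact sub_eq_zero.1 h3
    exact_mod_cast h4.symm
  · exact absurd h3 (h.tri a).e_ne_zero

/-- the trace identity -/
theorem trace_id (h : Rt b wt E F H) (a : Fin r) {c : Fin r → ℤ}
    (hc : ∀ i, ⁅H a, b i⁆ = ((lf c (wt i) : ℤ) : k) • b i) (d : Fin r → ℤ) :
    ((∑ i, lf d (wt i) * lf c (wt i) : ℤ) : k) =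
      (d a : k) * LinearMap.trace k L (LieAlgebra.ad k L (E a) * LieAlgebra.ad k L (F a)) := by
  set e := LieAlgebra.ad k L (E a) with he
  set f := LieAlgebra.ad k L (F a) with hf
  set hh := LieAlgebra.ad k L (H a) with hhh
  let D : Module.End k L := b.constr k fun i => ((lf d (wt i) : ℤ) : k) • b i
  have hD : ∀ i, D (b i) = ((lf d (wt i) : ℤ) : k) • b i := fun i => by
    simp [D, Basis.constr_basis]
  have h1 : e * f - f * e = hh := by
    refine LinearMap.ext fun y => ?_
    change ⁅E a, ⁅F a, y⁆⁆ - ⁅F a, ⁅E a, y⁆⁆ = ⁅H a, y⁆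
    rw [← (h.tri a).lie_e_f, lie_lie]
  have h2 : D * e - e * D = (d a : k) • e := by
    refine b.ext fun i => ?_
    have h3 := act_W hD (g := fun μ => ((lf d μ : ℤ) : k)) (h.grad _ _ _ (h.wE a) _ (basis_mem_W i))
    change D ⁅E a, b i⁆ - ⁅E a, D (b i)⁆ = (d a : k) • ⁅E a, b i⁆
    rw [h3, hD, lie_smul, ← sub_smul, lf_add, lf_single]
    push_cast
    congr 1
    ring
  have h3 : LinearMap.trace k L (D * hh) = ((∑ i, lf d (wt i) * lf c (wt i) : ℤ) : k) := by
    have h4 : ∀ i, (D * hh) (b i) = (((lf d (wt i) * lf c (wt i) : ℤ)) : k) • b i := by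
      intro i
      change D ⁅H a, b i⁆ = _
      rw [hc, map_smul, hD, smul_smul]
      push_cast
      rw [mul_comm]
    rw [trace_diag h4]
    push_cast
    rfl
  rw [← h3, ← h1, mul_sub, map_sub, ← mul_assoc, ← mul_assoc]
  have h4 : LinearMap.trace k L (D * f * e) = LinearMap.trace k L (e * D * f) := by
    rw [LinearMap.trace_mul_comm, mul_assoc]
  rw [h4, ← map_sub, ← sub_mul, h2, smul_mul_assoc, map_smul, smul_eq_mul]

/-- the Cartan matrix is invertible -/
theorem det_ne (h : Rt b wt E F H) {c : Fin r → Fin r → ℤ}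
    (hc : ∀ a i, ⁅H a, b i⁆ = ((lf (c a) (wt i) : ℤ) : k) • b i) :
    (Matrix.of fun j a => c a j : Matrix (Fin r) (Fin r) ℤ).det ≠ 0 := by
  classical
  set C : Matrix (Fin r) (Fin r) ℤ := Matrix.of fun j a => c a j with hC
  let M : Matrix (Fin r) (Fin r) ℤ := Matrix.of fun l j => ∑ i, wt i l * wt i j
  have hlf : ∀ (l : Fin r) (μ : Fin r → ℤ), lf (Pi.single l 1) μ = μ l := by
    intro l μ
    rw [lf, Finset.sum_eq_single l]
    · simp
    · intro j _ hj
      rw [Pi.single_eq_of_ne hj, mul_zero]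
    · intro hh
      exact absurd (Finset.mem_univ l) hh
  have hMC : ∀ l a, (M * C) l a = ∑ i, wt i l * lf (c a) (wt i) := by
    intro l a
    rw [Matrix.mul_apply]
    simp only [M, C, Matrix.of_apply, lf, Finset.sum_mul, Finset.mul_sum]
    rw [Finset.sum_comm]
    refine Finset.sum_congr rfl fun i _ => Finset.sum_congr rfl fun j _ => ?_
    ring
  let τ : Fin r → k := fun a =>
    LinearMap.trace k L (LieAlgebra.ad k L (E a) * LieAlgebra.ad k L (F a))
  have h1 : ∀ l a, (((M * C) l a : ℤ) : k) = (((Pi.single l 1 : Fin r → ℤ) a : ℤ) : k) * τ a := by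
    intro l a
    rw [hMC]
    have h2 := trace_id h a (hc a) (Pi.single l 1)
    simp only [hlf] at h2
    exact h2
  have h2 : ∀ a, ((∑ i, lf (c a) (wt i) * lf (c a) (wt i) : ℤ) : k) = 2 * τ a := by
    intro a
    have h3 := trace_id h a (hc a) (c a)
    rw [coroot_self h a (hc a)] at h3
    exact_mod_cast h3
  have h3 : ∀ a, τ a ≠ 0 := by
    intro a ha
    have h4 := h2 a
    rw [ha, mul_zero] at h4
    have h5 : (∑ i, lf (c a) (wt i) * lf (c a) (wt i) : ℤ) = 0 := by exact_mod_cast h4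
    obtain ⟨i0, hi0⟩ := exists_wt (h.wE a) (h.tri a).e_ne_zero
    have h6 := (Finset.sum_eq_zero_iff_of_nonneg fun i _ => mul_self_nonneg _).1 h5 i0
      (Finset.mem_univ i0)
    rw [hi0, lf_single, coroot_self h a (hc a)] at h6
    norm_num at h6
  have h4 : M * C = Matrix.diagonal fun a => (M * C) a a := by
    ext l a
    by_cases hla : l = a
    · subst hla; simp
    · rw [Matrix.diagonal_apply_ne _ hla]
      have h5 := h1 l a
      rw [Pi.single_eq_of_ne (Ne.symm hla), Int.cast_zero, zero_mul] at h5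
      exact_mod_cast h5
  intro h0
  have h5 : (M * C).det = 0 := by rw [Matrix.det_mul, h0, mul_zero]
  rw [h4, Matrix.det_diagonal, Finset.prod_eq_zero_iff] at h5
  obtain ⟨a, -, ha⟩ := h5
  have h6 := h1 a a
  rw [ha, Pi.single_eq_same] at h6
  simp only [Int.cast_zero, Int.cast_one, one_mul] at h6
  exact h3 a h6.symm

/-- multiples of the fundamental coweights are combinations of coroots -/
theorem exists_coweight (h : Rt b wt E F H) {c : Fin r → Fin r → ℤ}
    (hc : ∀ a i, ⁅H a, b i⁆ = ((lf (c a) (wt i) : ℤ) : k) • b i) : ∃ (q : ℕ), 0 < q ∧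
      ∃ N : Fin r → Fin r → ℤ, ∀ (j : Fin r) (μ : Fin r → ℤ),
        ∑ a, N j a * (2 * lf (c a) μ) = (q : ℤ) * μ j := by
  classical
  set C : Matrix (Fin r) (Fin r) ℤ := Matrix.of fun j a => c a j with hC
  have hdet := det_ne h hc
  rw [← hC] at hdet
  have hpos : 0 < 2 * C.det * C.det := by
    have := mul_self_pos.2 hdet
    linarith
  refine ⟨(2 * C.det * C.det).toNat, by omega, fun j a => C.det * C.adjugate a j, fun j μ => ?_⟩
  rw [Int.toNat_of_nonneg hpos.le]
  have h1 : ∀ l, ∑ a, C l a * C.adjugate a j = if l = j then C.det else 0 := by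
    intro l
    have h2 := congrFun (congrFun (Matrix.mul_adjugate C) l) j
    rw [Matrix.mul_apply, Matrix.smul_apply, Matrix.one_apply, smul_eq_mul] at h2
    rw [h2]
    split_ifs <;> simp
  calc ∑ a, C.det * C.adjugate a j * (2 * lf (c a) μ)
      = ∑ a, ∑ l, 2 * C.det * (μ l * (C l a * C.adjugate a j)) := by
        refine Finset.sum_congr rfl fun a _ => ?_
        rw [lf, Finset.mul_sum, Finset.mul_sum]
        refine Finset.sum_congr rfl fun l _ => ?_
        simp only [C, Matrix.of_apply]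
        ring
    _ = ∑ l, 2 * C.det * (μ l * ∑ a, C l a * C.adjugate a j) := by
        rw [Finset.sum_comm]
        refine Finset.sum_congr rfl fun l _ => ?_
        rw [Finset.mul_sum, Finset.mul_sum]
    _ = 2 * C.det * C.det * μ j := by
        rw [Finset.sum_eq_single j]
        · rw [h1, if_pos rfl]; ring
        · intro l _ hl
          rw [h1, if_neg hl]; ring
        · intro hh
          exact absurd (Finset.mem_univ j) hh

end cartan

end Vale.Agent.P092.H660.Rp
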