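import Mathlib
import Vale.Agent.P092.H213.Rp.Defs
import Vale.Agent.P092.H660.Rp.Wt

/-!
P092, project RP (helper660): the torus elements in the group generated by the exponentials of the
nilpotent elements: `T(t)^q` lies in the group for all `t`, for a fixed `q > 0`.
-/

set_option linter.all false

open Module

namespace Vale.Agent.P092.H660.Rp

open Vale.Agent.P092.H213.Rp (ex eu Nil W tor Rt)

section ex

variable {k V : Type} [Field k] [AddCommGroup V] [Module k V] [FiniteDimensional k V]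

theorem ex_eq {X : Module.End k V} (hX : IsNilpotent X) {N : ℕ} (hN : finrank k V < N) :
    ex X = ∑ i ∈ Finset.range N, ((i.factorial : k)⁻¹) • X ^ i := by
  rw [ex]
  refine Finset.sum_subset (fun i hi => ?_) fun i _ hi => ?_
  · rw [Finset.mem_range] at *
    omega
  · rw [Finset.mem_range] at hi
    rw [pow_eq_zero_of_nil hX (by omega), smul_zero]

theorem ex_apply {X : Module.End k V} (hX : IsNilpotent X) {x : V} (hx : X (X (X x)) = 0) :
    ex X x = x + X x + (2 : k)⁻¹ • X (X x) := by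
  rw [ex_eq hX (N := finrank k V + 1 + 1 + 1) (by omega), LinearMap.sum_apply,
    Finset.sum_range_succ', Finset.sum_range_succ', Finset.sum_range_succ',
    Finset.sum_eq_zero fun i _ => ?_]
  · simp [pow_succ, Module.End.mul_apply, Nat.factorial]
    abel
  · have h1 : (X ^ (i + 1 + 1 + 1)) x = (X ^ i) (X (X (X x))) := by
      rw [pow_succ, pow_succ, pow_succ]; rfl
    rw [LinearMap.smul_apply, h1, hx, map_zero, smul_zero]

theorem semiconj_ex {D X Y : Module.End k V} (h : SemiconjBy D X Y) :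
    SemiconjBy D (ex X) (ex Y) := by
  change D * ex X = ex Y * D
  rw [ex, ex, Finset.mul_sum, Finset.sum_mul]
  refine Finset.sum_congr rfl fun i _ => ?_
  rw [mul_smul_comm, smul_mul_assoc, (h.pow_right i).eq]

end ex

variable {k L : Type} [Field k] [CharZero k] [LieRing L] [LieAlgebra k L] {n r : ℕ}
  {b : Basis (Fin n) k L} {wt : Fin n → Fin r → ℤ} {E F H : Fin r → L}

theorem eu_smul (t : k) (x : L) : eu k (t • x) = ex (t • LieAlgebra.ad k L x) := by
  rw [eu, map_smul]

theorem repr_diag {T : Module.End k L} {g : Fin n → k} (hT : ∀ i, T (b i) = g i • b i) (x : L)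
    (i : Fin n) : b.repr (T x) i = g i * b.repr x i := by
  have h1 : (b.coord i) ∘ₗ T = g i • b.coord i := by
    refine b.ext fun j => ?_
    rw [LinearMap.comp_apply, hT, map_smul, LinearMap.smul_apply, b.coord_apply, b.repr_self]
    by_cases hij : j = i
    · subst hij; rfl
    · rw [Finsupp.single_apply, if_neg hij]
      simp
  exact LinearMap.congr_fun h1 x

section weyl

variable [FiniteDimensional k L] {h e f : L}

/-- the Weyl element -/
noncomputable def wl (k : Type) {L : Type} [Field k] [LieRing L] [LieAlgebra k L] (e f : L)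
    (s : kˣ) : Module.End k L :=
  ex ((s : k) • LieAlgebra.ad k L e) * ex ((-((s⁻¹ : kˣ) : k)) • LieAlgebra.ad k L f) *
    ex ((s : k) • LieAlgebra.ad k L e)

theorem nil_smul {X : Module.End k L} (hX : IsNilpotent X) (t : k) : IsNilpotent (t • X) := by
  obtain ⟨N, hN⟩ := hX
  exact ⟨N, by rw [smul_pow, hN, smul_zero]⟩

theorem wl_h (ht : IsSl2Triple h e f) (he : Nil k e) (hf : Nil k f) (s : kˣ) :
    wl k e f s h = -h := by
  have hhe : ⁅h, e⁆ = (2 : k) • e := ht.lie_h_e_smul k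
  have hhf : ⁅h, f⁆ = -((2 : k) • f) := ht.lie_lie_smul_f k
  have heh : ⁅e, h⁆ = -((2 : k) • e) := by rw [← lie_skew, hhe]
  have hfh : ⁅f, h⁆ = (2 : k) • f := by rw [← lie_skew, hhf, neg_neg]
  have hef : ⁅e, f⁆ = h := ht.lie_e_f
  have hfe : ⁅f, e⁆ = -h := by rw [← lie_skew, hef]
  set u : k := -((s⁻¹ : kˣ) : k) with hu
  have hsu : (s : k) * u = -1 := by
    rw [hu, mul_neg, Units.mul_inv]
  have h2 : (2 : k) ≠ 0 := two_ne_zero
  have e1 : ex ((s : k) • LieAlgebra.ad k L e) h = h - (2 * (s : k)) • e := by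
    rw [ex_apply (nil_smul he _) (by simp [heh])]
    simp only [LinearMap.smul_apply, LieAlgebra.ad_apply, heh, lie_neg, lie_smul, lie_self,
      smul_zero, neg_zero, add_zero, smul_neg, smul_smul]
    rw [mul_comm (s : k) 2]
    abel
  have e2 : ex ((s : k) • LieAlgebra.ad k L e) e = e := by
    rw [ex_apply (nil_smul he _) (by simp)]
    simp
  have f1 : ex (u • LieAlgebra.ad k L f) h = h + (2 * u) • f := by
    rw [ex_apply (nil_smul hf _) (by simp [hfh])]
    simp only [LinearMap.smul_apply, LieAlgebra.ad_apply, hfh, lie_smul, lie_self,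
      smul_zero, add_zero, smul_smul]
    rw [mul_comm u 2]
  have f2 : ex (u • LieAlgebra.ad k L f) e = e - u • h - (u * u) • f := by
    rw [ex_apply (nil_smul hf _) (by simp [hfh, hfe])]
    simp only [LinearMap.smul_apply, LieAlgebra.ad_apply, hfh, hfe, lie_smul, lie_neg, lie_self,
      smul_zero, add_zero, smul_smul, smul_neg]
    have h3 : 2⁻¹ * (u * (u * 2)) = u * u := by field_simp
    rw [h3]
    abel
  have e3 : ex ((s : k) • LieAlgebra.ad k L e) f = f + (s : k) • h - ((s : k) * s) • e := by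
    rw [ex_apply (nil_smul he _) (by simp [hef, heh])]
    simp only [LinearMap.smul_apply, LieAlgebra.ad_apply, hef, heh, lie_smul, lie_neg, lie_self,
      smul_zero, add_zero, smul_smul, smul_neg]
    have h3 : 2⁻¹ * ((s : k) * (s * 2)) = s * s := by field_simp
    rw [h3]
    abel
  change ex ((s : k) • LieAlgebra.ad k L e) (ex (u • LieAlgebra.ad k L f)
    (ex ((s : k) • LieAlgebra.ad k L e) h)) = -h
  rw [e1, map_sub, map_smul, f1, f2]
  have h4 : h + (2 * u) • f - (2 * (s : k)) • (e - u • h - (u * u) • f) =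
      -h - (2 * (s : k)) • e := by
    have h5 : (2 * (s : k)) * u = -2 := by rw [mul_assoc, hsu]; ring
    have h6 : (2 * (s : k)) * (u * u) = -(2 * u) := by
      calc (2 * (s : k)) * (u * u) = 2 * (s * u) * u := by ring
        _ = _ := by rw [hsu]; ring
    rw [smul_sub, smul_sub, smul_smul, smul_smul, h5, h6, neg_smul, neg_smul, two_smul k h]
    abel
  rw [h4, map_sub, map_neg, map_smul, e1, e2]
  abel

end weyl

variable {G : Type} [Group G] {ρ : G →* Module.End k L}

/-- the coroot subgroups -/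
theorem exists_coroot (hlie : ∀ g (x y : L), ρ g ⁅x, y⁆ = ⁅ρ g x, ρ g y⁆)
    (hfull : ∀ x : L, Nil k x → ∃ g, ρ g = eu k x) (h : Rt b wt E F H) (a : Fin r)
    {c : Fin r → ℤ} (hc : ∀ i, ⁅H a, b i⁆ = ((lf c (wt i) : ℤ) : k) • b i) (t : kˣ) :
    ∃ g : G, ∀ i, ρ g (b i) = ((t ^ (2 * lf c (wt i)) : kˣ) : k) • b i := by
  haveI : FiniteDimensional k L := b.finiteDimensional_of_finite
  have hE : Nil k (E a) := nil_of_W h.grad (single_ne a) (h.wE a)
  have hF : Nil k (F a) := nil_of_W h.grad (neg_single_ne a) (h.wF a)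
  have hca := coroot_self h a hc
  have hw : ∀ s : kˣ, ∃ g : G, ρ g = wl k (E a) (F a) s := by
    intro s
    obtain ⟨g1, hg1⟩ := hfull ((s : k) • E a) (by
      rw [Nil, map_smul]; exact nil_smul hE _)
    obtain ⟨g2, hg2⟩ := hfull ((-((s⁻¹ : kˣ) : k)) • F a) (by
      rw [Nil, map_smul]; exact nil_smul hF _)
    refine ⟨g1 * g2 * g1, ?_⟩
    rw [map_mul, map_mul, hg1, hg2, eu_smul, eu_smul]
    rfl
  set D : Module.End k L := b.constr k fun i => (((t⁻¹) ^ lf c (wt i) : kˣ) : k) • b i with hDd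
  have hD : ∀ i, D (b i) = (((t⁻¹) ^ lf c (wt i) : kˣ) : k) • b i := fun i => by
    simp [D, Basis.constr_basis]
  have hDE : SemiconjBy D (LieAlgebra.ad k L (E a))
      ((((t⁻¹) ^ 2 : kˣ) : k) • LieAlgebra.ad k L (E a)) := by
    refine LinearMap.ext fun y => ?_
    have h1 := act_lie h.grad (g := fun μ => (((t⁻¹) ^ lf c μ : kˣ) : k)) hD (h.wE a)
      (c := ((t ^ 2 : kˣ) : k)) (fun μ => by
        rw [lf_add, lf_single, hca, ← Units.val_mul]
        congr 1
        rw [zpow_add, ← mul_assoc, inv_zpow t 2]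
        have : (t ^ 2 : kˣ) * (t ^ (2 : ℤ))⁻¹ = 1 := by
          rw [zpow_ofNat, mul_inv_cancel]
        rw [this, one_mul]) y
    change D ⁅E a, y⁆ = (((t⁻¹) ^ 2 : kˣ) : k) • ⁅E a, D y⁆
    rw [h1, smul_smul, ← Units.val_mul, inv_pow, inv_mul_cancel, Units.val_one, one_smul]
  have hDF : SemiconjBy D (LieAlgebra.ad k L (F a))
      (((t ^ 2 : kˣ) : k) • LieAlgebra.ad k L (F a)) := by
    refine LinearMap.ext fun y => ?_
    have h1 := act_lie h.grad (g := fun μ => (((t⁻¹) ^ lf c μ : kˣ) : k)) hD (h.wF a)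
      (c := (((t⁻¹) ^ 2 : kˣ) : k)) (fun μ => by
        rw [lf_add, lf_neg, lf_single, hca, ← Units.val_mul]
        congr 1
        rw [zpow_add, ← mul_assoc, zpow_neg, zpow_ofNat, mul_inv_cancel, one_mul]) y
    change D ⁅F a, y⁆ = ((t ^ 2 : kˣ) : k) • ⁅F a, D y⁆
    rw [h1, smul_smul, ← Units.val_mul, inv_pow, mul_inv_cancel, Units.val_one, one_smul]
  have hsm : ∀ {X : Module.End k L} {q : k} (s : k), SemiconjBy D X (q • X) →
      SemiconjBy D (s • X) ((s * q) • X) := by
    intro X q s hX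
    change D * (s • X) = ((s * q) • X) * D
    rw [mul_smul_comm, hX.eq, smul_mul_assoc, smul_mul_assoc, smul_smul]
  have hcomm : D * wl k (E a) (F a) 1 = wl k (E a) (F a) ((t⁻¹) ^ 2) * D := by
    have h1 := semiconj_ex (hsm 1 hDE)
    have h2 := semiconj_ex (hsm (-1) hDF)
    have h3 := (h1.mul_right h2).mul_right h1
    have h4 : wl k (E a) (F a) 1 = ex ((1 : k) • LieAlgebra.ad k L (E a)) *
        ex ((-1 : k) • LieAlgebra.ad k L (F a)) * ex ((1 : k) • LieAlgebra.ad k L (E a)) := by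
      rw [wl]
      simp
    have h5 : wl k (E a) (F a) ((t⁻¹) ^ 2) =
        ex (((1 : k) * (((t⁻¹) ^ 2 : kˣ) : k)) • LieAlgebra.ad k L (E a)) *
        ex (((-1 : k) * ((t ^ 2 : kˣ) : k)) • LieAlgebra.ad k L (F a)) *
        ex (((1 : k) * (((t⁻¹) ^ 2 : kˣ) : k)) • LieAlgebra.ad k L (E a)) := by
      rw [wl, one_mul, inv_pow, inv_inv, neg_one_mul]
    rw [h4, h5]
    exact h3.eq
  obtain ⟨g1, hg1⟩ := hw 1
  obtain ⟨g2, hg2⟩ := hw ((t⁻¹) ^ 2)
  refine ⟨g1⁻¹ * g2, fun i => ?_⟩
  have heig : ∀ i', b.repr (ρ g1 (b i)) i' ≠ 0 → lf c (wt i') = - lf c (wt i) := by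
    intro i' hi'
    have h1 : ⁅H a, ρ g1 (b i)⁆ = -(((lf c (wt i) : ℤ) : k) • ρ g1 (b i)) := by
      have h2 : ρ g1 (H a) = -H a := by
        rw [hg1]; exact wl_h (h.tri a) hE hF 1
      have h3 := hlie g1 (H a) (b i)
      rw [h2, hc, map_smul, neg_lie] at h3
      rw [h3, neg_neg]
    have h2 := repr_diag (b := b) (T := LieAlgebra.ad k L (H a))
      (g := fun i => ((lf c (wt i) : ℤ) : k)) hc (ρ g1 (b i)) i'
    rw [LieAlgebra.ad_apply, h1, map_neg, map_smul, Finsupp.neg_apply, Finsupp.smul_apply,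
      smul_eq_mul] at h2
    have h3 : (((lf c (wt i') : ℤ) : k) + ((lf c (wt i) : ℤ) : k)) * b.repr (ρ g1 (b i)) i' = 0 := by
      rw [add_mul, ← h2]; ring
    rcases mul_eq_zero.1 h3 with h4 | h4
    · have h5 : lf c (wt i') + lf c (wt i) = 0 := by exact_mod_cast h4
      omega
    · exact absurd h4 hi'
  have hDw : D (ρ g1 (b i)) = (((t⁻¹) ^ (-lf c (wt i)) : kˣ) : k) • ρ g1 (b i) := by
    refine b.ext_elem fun i' => ?_
    rw [repr_diag hD, map_smul, Finsupp.smul_apply, smul_eq_mul]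
    by_cases hi' : b.repr (ρ g1 (b i)) i' = 0
    · rw [hi', mul_zero, mul_zero]
    · rw [heig i' hi']
  have h1 := LinearMap.congr_fun hcomm (b i)
  rw [Module.End.mul_apply, Module.End.mul_apply, ← hg1, ← hg2, hDw, hD, map_smul] at h1
  have h2 : ρ g2 (b i) = ((t ^ (2 * lf c (wt i)) : kˣ) : k) • ρ g1 (b i) := by
    have h3 := congrArg (fun x => ((t ^ lf c (wt i) : kˣ) : k) • x) h1
    simp only [smul_smul, ← Units.val_mul] at h3
    rw [inv_zpow, inv_zpow, zpow_neg, inv_inv, mul_inv_cancel, Units.val_one, one_smul] at h3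
    rw [← h3, two_mul, zpow_add]
  rw [map_mul, Module.End.mul_apply, h2, map_smul, ← Module.End.mul_apply, ← map_mul,
    inv_mul_cancel, map_one, Module.End.one_apply]

theorem zpow_fsum {M ι : Type} [CommGroup M] (t : M) (s : Finset ι) (f : ι → ℤ) :
    t ^ (∑ a ∈ s, f a) = ∏ a ∈ s, t ^ f a := by
  classical
  refine Finset.induction_on s (by simp) fun a s ha ih => ?_
  rw [Finset.sum_insert ha, Finset.prod_insert ha, zpow_add, ih]

/-- **All `q`-th powers of torus elements lie in the group.** -/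
theorem exists_tor (hlie : ∀ g (x y : L), ρ g ⁅x, y⁆ = ⁅ρ g x, ρ g y⁆)
    (hfull : ∀ x : L, Nil k x → ∃ g, ρ g = eu k x) (h : Rt b wt E F H) :
    ∃ q : ℕ, 0 < q ∧ ∀ t : Fin r → kˣ, ∃ g : G, ρ g = tor b wt (fun a => t a ^ q) := by
  have hc0 : ∀ a, ∃ c : Fin r → ℤ, ∀ i, ⁅H a, b i⁆ = ((lf c (wt i) : ℤ) : k) • b i := h.wH
  choose c hc using hc0
  obtain ⟨q, hq, N, hN⟩ := exists_coweight h hc
  let A : Subgroup (Fin n → kˣ) :=
    { carrier := {χ | ∃ g : G, ∀ i, ρ g (b i) = ((χ i : kˣ) : k) • b i}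
      one_mem' := ⟨1, fun i => by simp⟩
      mul_mem' := by
        rintro χ χ' ⟨g, hg⟩ ⟨g', hg'⟩
        refine ⟨g * g', fun i => ?_⟩
        rw [map_mul, Module.End.mul_apply, hg', map_smul, hg, smul_smul, Pi.mul_apply,
          Units.val_mul, mul_comm]
      inv_mem' := by
        rintro χ ⟨g, hg⟩
        refine ⟨g⁻¹, fun i => ?_⟩
        have h1 : ρ g⁻¹ (ρ g (b i)) = b i := by
          rw [← Module.End.mul_apply, ← map_mul, inv_mul_cancel, map_one, Module.End.one_apply]
        rw [hg, map_smul] at h1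
        have h2 := congrArg (fun x => (((χ i)⁻¹ : kˣ) : k) • x) h1
        simp only [smul_smul, ← Units.val_mul] at h2
        rw [inv_mul_cancel, Units.val_one, one_smul] at h2
        exact h2 }
  have h1 : ∀ a (t : kˣ), (fun i => t ^ (2 * lf (c a) (wt i))) ∈ A := fun a t =>
    exists_coroot hlie hfull h a (hc a) t
  have h2 : ∀ j (t : kˣ), (fun i => t ^ ((q : ℤ) * wt i j)) ∈ A := by
    intro j t
    have h3 : (fun i => t ^ ((q : ℤ) * wt i j)) =
        ∏ a, fun i => (t ^ N j a) ^ (2 * lf (c a) (wt i)) := by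
      funext i
      rw [Finset.prod_apply, ← hN]
      simp only [← zpow_mul]
      exact zpow_fsum t _ _
    rw [h3]
    exact Subgroup.prod_mem _ fun a _ => h1 a _
  refine ⟨q, hq, fun t => ?_⟩
  have h3 : (fun i => ∏ a, (t a ^ q) ^ wt i a) ∈ A := by
    have h4 : (fun i => ∏ a, (t a ^ q) ^ wt i a) = ∏ a, fun i => t a ^ ((q : ℤ) * wt i a) := by
      funext i
      rw [Finset.prod_apply]
      refine Finset.prod_congr rfl fun a _ => ?_
      rw [zpow_mul, zpow_natCast]
    rw [h4]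
    exact Subgroup.prod_mem _ fun a _ => h2 a _
  obtain ⟨g, hg⟩ := h3
  refine ⟨g, b.ext fun i => ?_⟩
  rw [hg, tor, Basis.constr_basis]

end Vale.Agent.P092.H660.Rp
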