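import Mathlib
import Vale.Agent.P092.H213.Rp.Defs
import Vale.Agent.P092.H660.Rp.Pp
import Vale.Agent.P092.H660.Rp.Tor
import Vale.Agent.P092.H701.Chain

/-!
P092, project RP (helper660): **[RP-P8]**, the chain of commuting directions with ping-pong
families of an isotropic simple group over a local field of characteristic zero (light version;
the conclusion is `H264.Chn G r` literally).
-/

set_option linter.all false

open Module Matrix Filter Topology MeasureTheory

namespace Vale.Agent.P092.H660.Rp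

open Vale.Agent.P092.H213.Rp (ex eu Nil W tor Rt RP)
open Vale.Agent.P092.H701 (HChain)

section alg

variable {k L : Type} [Field k] [CharZero k] [LieRing L] [LieAlgebra k L] {n r : ℕ}
  {b : Basis (Fin n) k L} {wt : Fin n → Fin r → ℤ} {E F H : Fin r → L}

/-- the functional of the highest coordinate -/
theorem exists_St (h : Rt b wt E F H) (j : Fin r) : ∃ (a : Fin n) (m : ℕ), 0 < m ∧
    St (LieAlgebra.ad k L (E j)) (LieAlgebra.ad k L (F j)) (b.coord a) m := by
  obtain ⟨c, hc⟩ : ∃ c : Fin r → ℤ, ∀ i, ⁅H j, b i⁆ = ((lf c (wt i) : ℤ) : k) • b i := h.wH j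
  have hcj := coroot_self h j hc
  obtain ⟨i0, hi0⟩ := exists_wt (h.wE j) (h.tri j).e_ne_zero
  haveI : Nonempty (Fin n) := ⟨i0⟩
  obtain ⟨a, ha⟩ := Finite.exists_max fun i => lf c (wt i)
  have hE : Nil k (E j) := nil_of_W h.grad (single_ne j) (h.wE j)
  have h1 : LieAlgebra.ad k L (E j) * LieAlgebra.ad k L (F j) -
      LieAlgebra.ad k L (F j) * LieAlgebra.ad k L (E j) = LieAlgebra.ad k L (H j) := by
    refine LinearMap.ext fun y => ?_
    change ⁅E j, ⁅F j, y⁆⁆ - ⁅F j, ⁅E j, y⁆⁆ = ⁅H j, y⁆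
    rw [← (h.tri j).lie_e_f, lie_lie]
  have h2 : LieAlgebra.ad k L (H j) * LieAlgebra.ad k L (E j) -
      LieAlgebra.ad k L (E j) * LieAlgebra.ad k L (H j) = 2 • LieAlgebra.ad k L (E j) := by
    refine LinearMap.ext fun y => ?_
    change ⁅H j, ⁅E j, y⁆⁆ - ⁅E j, ⁅H j, y⁆⁆ = 2 • ⁅E j, y⁆
    rw [← lie_lie, (h.tri j).lie_h_e_nsmul, nsmul_lie]
  have h3 : ∀ x, b.coord a (LieAlgebra.ad k L (F j) x) = 0 := by
    have h4 : b.coord a ∘ₗ (LieAlgebra.ad k L (F j)) = 0 := by
      refine b.ext fun i => ?_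
      rw [LinearMap.comp_apply, LinearMap.zero_apply, LieAlgebra.ad_apply, Basis.coord_apply]
      by_contra h5
      have h6 := mem_W.1 (h.grad _ _ _ (h.wF j) _ (basis_mem_W i)) a h5
      have h7 := ha i
      simp only [h6, lf_add, lf_neg, lf_single, hcj] at h7
      omega
    exact fun x => LinearMap.congr_fun h4 x
  have h4 : ∀ x, b.coord a (LieAlgebra.ad k L (H j) x) = ((lf c (wt a) : ℤ) : k) * b.coord a x :=
    fun x => repr_diag (b := b) (T := LieAlgebra.ad k L (H j))
      (g := fun i => ((lf c (wt i) : ℤ) : k)) hc x a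
  have h5 : b.coord a ≠ 0 := by
    intro h6
    have h7 := LinearMap.congr_fun h6 (b a)
    rw [Basis.coord_apply, b.repr_self, Finsupp.single_eq_same] at h7
    simp at h7
  obtain ⟨m, hm, hs⟩ := St.of_triple hE h1 h2 h3 h4 h5
  refine ⟨a, m, ?_, hs⟩
  have h6 := ha i0
  simp only [hi0, lf_single, hcj] at h6
  omega

theorem vecMul_toMatrix (Λ : L →ₗ[k] k) (T : Module.End k L) :
    (fun i => Λ (b i)) ᵥ* LinearMap.toMatrix b b T = fun i => Λ (T (b i)) := by
  funext i
  change ∑ l, Λ (b l) * LinearMap.toMatrix b b T l i = _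
  have h1 : Λ (T (b i)) = Λ (∑ l, b.repr (T (b i)) l • b l) := by rw [b.sum_repr]
  rw [h1, map_sum]
  refine Finset.sum_congr rfl fun l _ => ?_
  rw [LinearMap.toMatrix_apply, map_smul, smul_eq_mul, mul_comm]

variable {G : Type} [Group G] {ρ : G →* Module.End k L}

/-- torus elements in one direction -/
theorem exists_tor1 (hlie : ∀ g (x y : L), ρ g ⁅x, y⁆ = ⁅ρ g x, ρ g y⁆)
    (hfull : ∀ x : L, Nil k x → ∃ g, ρ g = eu k x) (h : Rt b wt E F H) :
    ∃ q : ℕ, 0 < q ∧ ∀ (j : Fin r) (t : kˣ), ∃ g : G, ∀ i,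
      ρ g (b i) = (((t ^ q) ^ wt i j : kˣ) : k) • b i := by
  classical
  obtain ⟨q, hq, hT⟩ := exists_tor hlie hfull h
  refine ⟨q, hq, fun j t => ?_⟩
  obtain ⟨g, hg⟩ := hT (fun l => if l = j then t else 1)
  refine ⟨g, fun i => ?_⟩
  rw [hg, tor, Basis.constr_basis, Finset.prod_eq_single j]
  · rw [if_pos rfl]
  · intro l _ hl
    rw [if_neg hl, one_pow, _root_.one_zpow]
  · intro hh
    exact absurd (Finset.mem_univ j) hh

end alg

variable {k : Type} [NontriviallyNormedField k] [ProperSpace k] [CharZero k]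
  {L : Type} [LieRing L] [LieAlgebra k L] {n r : ℕ} {b : Basis (Fin n) k L}
  {wt : Fin n → Fin r → ℤ} {E F H : Fin r → L}
  {G : Type} [Group G] [TopologicalSpace G] {ρ : G →* Module.End k L}

theorem continuous_ex (X : Module.End k L) :
    Continuous fun s : k => LinearMap.toMatrix b b (ex (s • X)) := by
  have h1 : (fun s : k => LinearMap.toMatrix b b (ex (s • X))) = fun s : k =>
      ∑ i ∈ Finset.range (finrank k L + 1),
        ((i.factorial : k)⁻¹) • s ^ i • LinearMap.toMatrix b b (X ^ i) := by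
    funext s
    rw [ex, map_sum]
    refine Finset.sum_congr rfl fun i _ => ?_
    rw [smul_pow, map_smul, map_smul]
  rw [h1]
  fun_prop

/-- **[RP-P8]**: the chain. -/
theorem exists_chain (hρ : RP b ρ) (h : Rt b wt E F H) :
    letI : MeasurableSpace G := borel G
    ∃ C : HChain G r, ∀ hn : 0 < r, Tendsto (C.b ⟨0, hn⟩) atTop (cocompact G) := by
  classical
  letI : MeasurableSpace G := borel G
  haveI : BorelSpace G := ⟨rfl⟩
  haveI : FiniteDimensional k L := b.finiteDimensional_of_finite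
  set mt : G → Matrix (Fin n) (Fin n) k := fun g => LinearMap.toMatrix b b (ρ g) with hmt
  have hemb : IsClosedEmbedding mt := hρ.emb
  have hmul : ∀ g g', mt (g * g') = mt g * mt g' := fun g g' => by
    simp only [hmt, map_mul, LinearMap.toMatrix_mul]
  have hone : mt 1 = 1 := by simp only [hmt, map_one, LinearMap.toMatrix_one]
  have hρinj : ∀ {g g'}, ρ g = ρ g' → g = g' := fun {g g'} hg =>
    hemb.injective (by simp only [hmt, hg])
  obtain ⟨q, hq, hT⟩ := exists_tor1 hρ.lie hρ.full h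
  choose a m hm hs using exists_St (k := k) (L := L) h
  obtain ⟨w, hw⟩ := NormedField.exists_one_lt_norm k
  have hw0 : w ≠ 0 := by
    rintro rfl
    rw [norm_zero] at hw
    linarith
  set π : kˣ := Units.mk0 w hw0 with hπ
  have hπ1 : 1 < ‖(π : k)‖ := hw
  choose bb hbb using fun (j : Fin r) (N : ℕ) => hT j (π ^ (N * m j))
  have hNE : ∀ j, IsNilpotent (LieAlgebra.ad k L (E j)) := fun j =>
    nil_of_W h.grad (single_ne j) (h.wE j)
  have hNF : ∀ j, IsNilpotent (LieAlgebra.ad k L (F j)) := fun j =>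
    nil_of_W h.grad (neg_single_ne j) (h.wF j)
  have hgE : ∀ j (s : k), ∃ g : G, ρ g = ex (s • LieAlgebra.ad k L (E j)) := by
    intro j s
    obtain ⟨g, hg⟩ := hρ.full (s • E j) (by rw [Nil, map_smul]; exact nil_smul (hNE j) s)
    exact ⟨g, by rw [hg, eu_smul]⟩
  have hgF : ∀ j (s : k), ∃ g : G, ρ g = ex (s • LieAlgebra.ad k L (F j)) := by
    intro j s
    obtain ⟨g, hg⟩ := hρ.full (s • F j) (by rw [Nil, map_smul]; exact nil_smul (hNF j) s)
    exact ⟨g, by rw [hg, eu_smul]⟩
  let K : Fin r → Set G := fun j => mt ⁻¹'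
    ((fun s : k => LinearMap.toMatrix b b (ex (s • LieAlgebra.ad k L (E j)))) ''
      Metric.closedBall 0 1 ∪
    (fun s : k => LinearMap.toMatrix b b (ex (s • LieAlgebra.ad k L (F j)))) ''
      Metric.closedBall 0 1)
  have hK : ∀ j, IsCompact (K j) := fun j => hemb.isCompact_preimage
    (((isCompact_closedBall 0 1).image (continuous_ex _)).union
      ((isCompact_closedBall 0 1).image (continuous_ex _)))
  have hcom : ∀ i j, i ≠ j → ∀ (N : ℕ) (x : L) (s : k), (x ∈ W b wt (Pi.single j 1) ∨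
      x ∈ W b wt (-Pi.single j 1)) →
      ρ (bb i N) * ex (s • LieAlgebra.ad k L x) = ex (s • LieAlgebra.ad k L x) * ρ (bb i N) := by
    intro i j hij N x s hx
    have h1 : SemiconjBy (ρ (bb i N)) (LieAlgebra.ad k L x) (LieAlgebra.ad k L x) := by
      refine LinearMap.ext fun y => ?_
      change ρ (bb i N) ⁅x, y⁆ = ⁅x, ρ (bb i N) y⁆
      rcases hx with hx | hx
      · rw [act_lie h.grad (g := fun μ => ((((π ^ (N * m i)) ^ q) ^ μ i : kˣ) : k)) (hbb i N) hx
          (c := 1) (fun μ => by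
            rw [Pi.add_apply, Pi.single_eq_of_ne hij, zero_add, one_mul]), one_smul]
      · rw [act_lie h.grad (g := fun μ => ((((π ^ (N * m i)) ^ q) ^ μ i : kˣ) : k)) (hbb i N) hx
          (c := 1) (fun μ => by
            rw [Pi.add_apply, Pi.neg_apply, Pi.single_eq_of_ne hij, neg_zero, zero_add, one_mul]),
          one_smul]
    have h2 : SemiconjBy (ρ (bb i N)) (s • LieAlgebra.ad k L x) (s • LieAlgebra.ad k L x) := by
      change ρ (bb i N) * (s • LieAlgebra.ad k L x) = (s • LieAlgebra.ad k L x) * ρ (bb i N)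
      rw [mul_smul_comm, h1.eq, smul_mul_assoc]
    exact (semiconj_ex h2).eq
  refine ⟨{ b := bb, K := K, compact := hK, comm_b := ?_, comm_K := ?_, pp := ?_ }, ?_⟩
  · intro i j _ N M
    refine hρinj (b.ext fun l => ?_)
    rw [map_mul, map_mul, Module.End.mul_apply, Module.End.mul_apply, hbb, hbb, map_smul,
      map_smul, hbb, hbb, smul_comm]
  · intro i j hij N x hx
    refine hρinj ?_
    rw [map_mul, map_mul]
    rcases hx with ⟨s, -, hs⟩ | ⟨s, -, hs⟩
    · have h1 : ρ x = ex (s • LieAlgebra.ad k L (E j)) := (LinearMap.toMatrix b b).injective hs.symm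
      rw [h1]
      exact hcom i j hij.ne N (E j) s (Or.inl (h.wE j))
    · have h1 : ρ x = ex (s • LieAlgebra.ad k L (F j)) := (LinearMap.toMatrix b b).injective hs.symm
      rw [h1]
      exact hcom i j hij.ne N (F j) s (Or.inr (h.wF j))
  · intro j p
    let φ : L →ₗ[k] k := b.coord (a j)
    let e := LieAlgebra.ad k L (E j)
    let ζ : k × k → Fin n → k := fun v i => Z e φ (m j) v (b i)
    have hPl : Pl (m j) ζ := by
      refine ⟨?_, ?_, ?_, hm j⟩
      · refine continuous_pi fun i => ?_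
        change Continuous fun v => Z e φ (m j) v (b i)
        simp only [Z_apply]
        fun_prop
      · intro c v
        funext i
        have h1 := LinearMap.congr_fun (Z_smul (e := e) (φ := φ) (m := m j) c v) (b i)
        exact h1
      · intro v hv h0
        exact Z_ne (hNE j) (hs j) hv (b.ext fun i => congrFun h0 i)
    have hact : ∀ (g : G) (v : k × k), ζ v ᵥ* mt g = fun i => Z e φ (m j) v (ρ g (b i)) :=
      fun g v => vecMul_toMatrix (Z e φ (m j) v) (ρ g)
    refine pp_of (b := bb j) (K := K j) hemb.continuous hone hmul hPl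
      (r := fun N => ((((π ^ N) ^ q) ^ wt (a j) j : kˣ) : k))
      (c := fun N => ((((π ^ (N * m j)) ^ q)⁻¹ : kˣ) : k)) ?_ ?_ ?_ ?_ ?_ ?_ p
    · intro t ht
      obtain ⟨g, hg⟩ := hgE j t
      refine ⟨g, Or.inl ⟨t, mem_closedBall_zero_iff.2 ht, ?_⟩, fun v => ?_⟩
      · simp only [hmt, hg]
      · rw [hact]
        funext i
        rw [hg]
        exact Z_e (hNE j) (hs j) v t (b i)
    · intro t ht
      obtain ⟨g, hg⟩ := hgF j t
      refine ⟨g, Or.inr ⟨t, mem_closedBall_zero_iff.2 ht, ?_⟩, fun v => ?_⟩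
      · simp only [hmt, hg]
      · rw [hact]
        funext i
        rw [hg]
        exact Z_f (hNF j) (hs j) v t (b i)
    · exact fun N => Units.ne_zero _
    · exact fun N => Units.ne_zero _
    · have h1 : (fun N : ℕ => ((((π ^ (N * m j)) ^ q)⁻¹ : kˣ) : k)) =
          fun N : ℕ => ((π : k)⁻¹ ^ (m j * q)) ^ N := by
        funext N
        rw [← pow_mul, ← inv_pow, Units.val_pow_eq_pow_val, Units.val_inv_eq_inv_val, ← pow_mul]
        congr 1
        ring
      rw [h1]
      refine tendsto_pow_atTop_nhds_zero_of_norm_lt_one ?_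
      rw [norm_pow, norm_inv]
      exact pow_lt_one₀ (by positivity) (inv_lt_one_of_one_lt₀ hπ1)
        (Nat.mul_ne_zero (hm j).ne' hq.ne')
    · intro N v
      rw [hact]
      funext i
      have h1 : ∀ x, φ (ρ (bb j N) x) =
          ((((π ^ N) ^ q) ^ wt (a j) j : kˣ) : k) ^ m j * φ x := by
        intro x
        have h2 := repr_diag (b := b) (T := ρ (bb j N))
          (g := fun i => ((((π ^ (N * m j)) ^ q) ^ wt i j : kˣ) : k)) (hbb j N) x (a j)
        have h3 : ((((π ^ N) ^ q) ^ wt (a j) j : kˣ) : k) ^ m j =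
            ((((π ^ (N * m j)) ^ q) ^ wt (a j) j : kˣ) : k) := by
          rw [← Units.val_pow_eq_pow_val]
          congr 1
          rw [← _root_.zpow_natCast, ← _root_.zpow_mul, mul_comm (wt (a j) j) _, _root_.zpow_mul,
            _root_.zpow_natCast,
            ← pow_mul, ← pow_mul, ← pow_mul]
          congr 2
          ring
        rw [h3]
        exact h2
      have h2 : ∀ x, e (ρ (bb j N) x) =
          ((((π ^ (N * m j)) ^ q)⁻¹ : kˣ) : k) • ρ (bb j N) (e x) := by
        intro x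
        exact act_lie h.grad (g := fun μ => ((((π ^ (N * m j)) ^ q) ^ μ j : kˣ) : k)) (hbb j N)
          (h.wE j) (fun μ => by
            rw [← Units.val_mul, Pi.add_apply, Pi.single_eq_same, _root_.zpow_add, _root_.zpow_one,
              inv_mul_cancel_left]) x
      exact Z_tor h1 h2 v (b i)
  · intro hn
    obtain ⟨i0, hi0⟩ := exists_wt (h.wE ⟨0, hn⟩) (h.tri ⟨0, hn⟩).e_ne_zero
    have hval : ∀ N : ℕ, ‖mt (bb ⟨0, hn⟩ N) i0 i0‖ = (‖(π : k)‖ ^ (m ⟨0, hn⟩ * q)) ^ N := by
      intro N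
      simp only [hmt]
      rw [LinearMap.toMatrix_apply, hbb, map_smul, Finsupp.smul_apply, b.repr_self,
        Finsupp.single_eq_same, smul_eq_mul, mul_one, hi0, Pi.single_eq_same, zpow_one, ← pow_mul,
        Units.val_pow_eq_pow_val, norm_pow, ← pow_mul]
      congr 1
      ring
    have hcont : Continuous fun g : G => ‖mt g i0 i0‖ :=
      (hemb.continuous.matrix_elem _ _).norm
    refine Filter.hasBasis_cocompact.tendsto_right_iff.2 fun S hS' => ?_
    obtain ⟨B, hB⟩ := (hS'.image hcont).bddAbove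
    have h1 : 1 < ‖(π : k)‖ ^ (m ⟨0, hn⟩ * q) :=
      one_lt_pow₀ hπ1 (Nat.mul_ne_zero (hm _).ne' hq.ne')
    have hev : ∀ᶠ N : ℕ in atTop, B < (‖(π : k)‖ ^ (m ⟨0, hn⟩ * q)) ^ N :=
      (tendsto_pow_atTop_atTop_of_one_lt h1).eventually_gt_atTop B
    filter_upwards [hev] with N hN hc
    have h2 := hB ⟨_, hc, rfl⟩
    simp only at h2
    rw [hval] at h2
    linarith

end Vale.Agent.P092.H660.Rp
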